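import Vale.Agent.P209N.C.Defs

/-! P209N/C: the Borsuk-Ulam theorem.  Cochains with values in `ZMod 2` on lists of points; the
hemispheres are functionals built from prism operators, and the cup product of the sign cocycles
is evaluated on them. -/

open Filter Topology

namespace Vale.Agent.P209.C

section Comb

variable {X : Type}

/-- coboundary -/
def buD : (List X → ZMod 2) → List X → ZMod 2
  | _, [] => 0
  | φ, x :: l => φ l + buD (fun w => φ (x :: w)) l

/-- prism operator -/
def buP (f g : X → X) : (List X → ZMod 2) → List X → ZMod 2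
  | _, [] => 0
  | φ, x :: l => φ (f x :: g x :: l.map g) + buP f g (fun w => φ (f x :: w)) l

theorem bu_two (a : ZMod 2) : a + a = 0 := CharTwo.add_self_eq_zero a

theorem buD_add (φ ψ : List X → ZMod 2) (l : List X) :
    buD (fun w => φ w + ψ w) l = buD φ l + buD ψ l := by
  induction l generalizing φ ψ with
  | nil => simp [buD]
  | cons x l ih => simp only [buD]; rw [ih]; ring

theorem buD_mul (c : ZMod 2) (φ : List X → ZMod 2) (l : List X) :
    buD (fun w => c * φ w) l = c * buD φ l := by
  induction l generalizing φ with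
  | nil => simp [buD]
  | cons x l ih => simp only [buD]; rw [ih]; ring

theorem buD_map (g : X → X) (φ : List X → ZMod 2) (l : List X) :
    buD (fun w => φ (w.map g)) l = buD φ (l.map g) := by
  induction l generalizing φ with
  | nil => simp [buD]
  | cons x l ih => simp only [buD, List.map_cons]; rw [← ih]

theorem buD_buD (φ : List X → ZMod 2) (l : List X) : buD (buD φ) l = 0 := by
  induction l generalizing φ with
  | nil => simp [buD]
  | cons x l ih =>
    simp only [buD]
    rw [buD_add, ih, add_zero, bu_two]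

theorem buP_add (f g : X → X) (φ ψ : List X → ZMod 2) (l : List X) :
    buP f g (fun w => φ w + ψ w) l = buP f g φ l + buP f g ψ l := by
  induction l generalizing φ ψ with
  | nil => simp [buP]
  | cons x l ih => simp only [buP]; rw [ih]; ring

theorem buP_buD (f g : X → X) (φ : List X → ZMod 2) (l : List X) :
    buP f g (buD φ) l = φ (l.map f) + φ (l.map g) + buD (buP f g φ) l := by
  induction l generalizing φ with
  | nil => simp [buP, buD, bu_two]
  | cons x l ih =>
    simp only [buP, buD, List.map_cons]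
    rw [buP_add, buD_add, ih, buD_map g fun w => φ (f x :: g x :: w)]
    have h := bu_two (φ (f x :: l.map g))
    linear_combination h

theorem buP_zero (f g : X → X) (φ : List X → ZMod 2) (l : List X)
    (h : ∀ w, w.length = l.length + 1 → (∀ z ∈ w, ∃ x ∈ l, z = f x ∨ z = g x) → φ w = 0) :
    buP f g φ l = 0 := by
  induction l generalizing φ with
  | nil => simp [buP]
  | cons x l ih =>
    simp only [buP]
    rw [h, ih, add_zero]
    · intro w hw hz
      refine h _ (by simp [hw]) fun z hz' => ?_
      rcases List.mem_cons.1 hz' with rfl | hz'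
      · exact ⟨x, List.mem_cons_self, Or.inl rfl⟩
      · obtain ⟨y, hy, e⟩ := hz z hz'
        exact ⟨y, List.mem_cons_of_mem _ hy, e⟩
    · simp
    · intro z hz
      simp only [List.mem_cons, List.mem_map] at hz
      rcases hz with rfl | rfl | ⟨y, hy, rfl⟩
      · exact ⟨x, List.mem_cons_self, Or.inl rfl⟩
      · exact ⟨x, List.mem_cons_self, Or.inr rfl⟩
      · exact ⟨y, List.mem_cons_of_mem _ hy, Or.inr rfl⟩

/-- cup product with a function -/
def buC (s : X → ZMod 2) (β : List X → ZMod 2) : List X → ZMod 2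
  | [] => 0
  | x :: l => s x * β (x :: l)

/-- the cup products -/
def buB (s : ℕ → X → ZMod 2) : ℕ → List X → ZMod 2
  | 0 => buD fun w => if w.length = 0 then 1 else 0
  | k + 1 => buD (buC (s k) (buB s k))

theorem buB_cons (s : ℕ → X → ZMod 2) (k : ℕ) (x y : X) (l : List X) :
    buB s (k + 1) (x :: y :: l) = (s k x + s k y) * buB s k (y :: l) := by
  have h : buD (buB s k) (x :: y :: l) = 0 := by
    cases k <;> exact buD_buD _ _
  have e : buB s (k + 1) (x :: y :: l) = s k y * buB s k (y :: l) +
      buD (fun w => s k x * buB s k (x :: w)) (y :: l) := rfl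
  have e' : buD (buB s k) (x :: y :: l) = buB s k (y :: l) +
      buD (fun w => buB s k (x :: w)) (y :: l) := rfl
  rw [e, buD_mul]
  have h2 := bu_two (s k x * buB s k (y :: l))
  linear_combination s k x * (h - e') - h2

theorem buB_zero (s : ℕ → X → ZMod 2) (k : ℕ) (l : List X) (hl : l.length = k + 1)
    (h : ∃ i < k, ∀ x ∈ l, ∀ y ∈ l, s i x = s i y) : buB s k l = 0 := by
  induction k generalizing l with
  | zero => obtain ⟨i, hi, -⟩ := h; omega
  | succ k ih =>
    obtain ⟨i, hi, h⟩ := h
    match l, hl with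
    | x :: y :: l, hl =>
      rw [buB_cons]
      rcases Nat.lt_succ_iff_lt_or_eq.1 hi with hi | rfl
      · rw [ih (y :: l) (by simpa using hl) ⟨i, hi, fun a ha b hb =>
          h a (List.mem_cons_of_mem _ ha) b (List.mem_cons_of_mem _ hb)⟩, mul_zero]
      · rw [h x (by simp) y (by simp), bu_two, zero_mul]

variable [AddCommGroup X]

theorem buB_neg (s : ℕ → X → ZMod 2) (k : ℕ) (l : List X) (hl : l.length = k + 1)
    (h : ∀ i, ∀ x ∈ l, s i (-x) = s i x + 1) : buB s k (l.map Neg.neg) = buB s k l := by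
  induction k generalizing l with
  | zero =>
    match l, hl with
    | [x], _ => rfl
  | succ k ih =>
    match l, hl with
    | x :: y :: l, hl =>
      have h1 := ih (y :: l) (by simpa using hl) fun i a ha => h i a (List.mem_cons_of_mem _ ha)
      rw [List.map_cons] at h1
      rw [List.map_cons, List.map_cons, buB_cons, buB_cons, h1, h k x (by simp), h k y (by simp)]
      linear_combination buB s k (y :: l) * bu_two 1

/-- symmetrization -/
def buS (φ : List X → ZMod 2) (w : List X) : ZMod 2 := φ w + φ (w.map Neg.neg)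

/-- the hemispheres -/
def buI (e : X) (f : ℕ → ℕ → X → X) (N : ℕ) : ℕ → (List X → ZMod 2) → ZMod 2
  | 0, φ => φ [e]
  | k + 1, φ => ∑ i ∈ Finset.range N, buI e f N k (buS (buP (f k i) (f k (i + 1)) φ))

variable {e : X} {f : ℕ → ℕ → X → X} {N : ℕ}

theorem buI_add (k : ℕ) (φ ψ : List X → ZMod 2) :
    buI e f N k (fun w => φ w + ψ w) = buI e f N k φ + buI e f N k ψ := by
  induction k generalizing φ ψ with
  | zero => rfl
  | succ k ih =>
    simp only [buI]
    rw [← Finset.sum_add_distrib]
    refine Finset.sum_congr rfl fun i _ => ?_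
    rw [← ih]
    congr 1
    funext w
    simp only [buS, buP_add]
    ring

theorem buI_zero (k : ℕ) : buI e f N k (fun _ => 0) = 0 := by
  have h := buI_add (e := e) (f := f) (N := N) k (fun _ => 0) fun _ => 0
  simp only [add_zero] at h
  rw [h, bu_two]

theorem buI_step (h0 : ∀ k x, f k 0 x = x) (hN : ∀ k x, f k N (-x) = f k N x) {k : ℕ}
    (h : ∀ ψ, buI e f N k (buS (buD ψ)) = 0) (φ : List X → ZMod 2) :
    buI e f N (k + 1) (buD φ) = buI e f N k (buS φ) := by
  have key : ∀ i, buI e f N k (buS (buP (f k i) (f k (i + 1)) (buD φ))) =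
      buI e f N k (buS fun w => φ (w.map (f k (i + 1)))) -
        buI e f N k (buS fun w => φ (w.map (f k i))) := by
    intro i
    rw [CharTwo.sub_eq_add, ← buI_add, ← add_zero (buI e f N k fun w => _ + _),
      ← h (buP (f k i) (f k (i + 1)) φ), ← buI_add]
    congr 1
    funext w
    simp only [buS, buP_buD]
    ring
  simp only [buI, key]
  rw [Finset.sum_range_sub fun i => buI e f N k (buS fun w => φ (w.map (f k i))),
    CharTwo.sub_eq_add]
  have e1 : (buS fun w => φ (w.map (f k N))) = fun _ => 0 := by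
    funext w
    have : f k N ∘ Neg.neg = f k N := funext (hN k)
    simp only [buS, List.map_map, this, bu_two]
  have e2 : (fun w : List X => φ (w.map (f k 0))) = φ := by
    funext w
    rw [show f k 0 = id from funext (h0 k), List.map_id]
  rw [e1, e2, buI_zero, zero_add]

theorem buI_bd (h0 : ∀ k x, f k 0 x = x) (hN : ∀ k x, f k N (-x) = f k N x) (k : ℕ)
    (ψ : List X → ZMod 2) : buI e f N k (buS (buD ψ)) = 0 := by
  induction k generalizing ψ with
  | zero => exact bu_two _
  | succ k ih =>
    have e1 : buS (buD ψ) = buD (buS ψ) := by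
      funext w
      unfold buS
      rw [buD_add, buD_map]
    have e2 : buS (buS ψ) = fun _ => 0 := by
      funext w
      have : (Neg.neg ∘ Neg.neg : X → X) = id := funext neg_neg
      simp only [buS, List.map_map, this, List.map_id]
      rw [add_comm (ψ (w.map Neg.neg)), bu_two]
    rw [e1, buI_step h0 hN ih, e2, buI_zero]

theorem bu_comb (h0 : ∀ k x, f k 0 x = x) (hN : ∀ k x, f k N (-x) = f k N x)
    {Good : ℕ → List X → Prop} {n : ℕ} (g0 : Good 0 [e])
    (gl : ∀ k l, Good k l → l.length = k + 1) (gn : ∀ k l, Good k l → Good k (l.map Neg.neg))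
    (gf : ∀ k < n, ∀ i < N, ∀ l w, Good k l → w.length = l.length + 1 →
      (∀ z ∈ w, ∃ x ∈ l, z = f k i x ∨ z = f k (i + 1) x) → Good (k + 1) w)
    {s : ℕ → X → ZMod 2} (hs : ∀ k l, Good k l → ∀ i, ∀ x ∈ l, s i (-x) = s i x + 1) :
    ∃ l, Good n l ∧ buB s n l ≠ 0 := by
  have supp : ∀ k ≤ n, ∀ φ, (∀ l, Good k l → φ l = 0) → buI e f N k φ = 0 := by
    intro k
    induction k with
    | zero => exact fun _ φ h => h _ g0
    | succ k ih =>
      intro hk φ h
      refine Finset.sum_eq_zero fun i hi => ih (by omega) _ fun l hl => ?_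
      have key : ∀ l, Good k l → buP (f k i) (f k (i + 1)) φ l = 0 := fun l hl =>
        buP_zero _ _ _ _ fun w hw hz => h w (gf k hk i (Finset.mem_range.1 hi) l w hl hw hz)
      rw [buS, key l hl, key _ (gn k l hl), add_zero]
  have one : ∀ k ≤ n, buI e f N k (buB s k) = 1 := by
    intro k
    induction k with
    | zero => intro _; simp [buI, buB, buD]
    | succ k ih =>
      intro hk
      have h1 := supp k (by omega) (fun w => buS (buC (s k) (buB s k)) w + buB s k w) fun l hl => by
        have h2 := buB_neg s k l (gl k l hl) (hs k l hl)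
        match l, gl k l hl with
        | x :: l, _ =>
          rw [List.map_cons] at h2
          simp only [buS, buC, List.map_cons]
          rw [h2, hs k _ hl k x (by simp)]
          linear_combination bu_two ((s k x + 1) * buB s k (x :: l))
      rw [buI_add, ih (by omega)] at h1
      rw [buB, buI_step h0 hN (buI_bd h0 hN k)]
      linear_combination h1 - bu_two 1
  by_contra hc
  push Not at hc
  exact zero_ne_one ((supp n le_rfl _ hc).symm.trans (one n le_rfl))

theorem bu_sign : ∃ s : X → ZMod 2, ∀ x, x ≠ -x → s (-x) = s x + 1 := by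
  obtain ⟨_, -⟩ := exists_wellFoundedLT X
  refine ⟨fun x => if x < -x then 1 else 0, fun x hx => ?_⟩
  simp only [neg_neg]
  rcases lt_or_gt_of_ne hx with h | h
  · rw [if_pos h, if_neg h.not_gt, bu_two]
  · rw [if_pos h, if_neg h.not_gt, zero_add]

end Comb

theorem borsuk {k : ℕ} (g : (Fin (k + 1) → ℝ) → Fin k → ℝ) (hg : Continuous g)
    (odd : ∀ x, g (-x) = -g x) : ∃ x, x ≠ 0 ∧ g x = 0 := by
  by_contra hc
  push Not at hc
  set K : Set (Fin (k + 1) → ℝ) := {x | ∑ j, |x j| = 1} with hK
  have K1 : ∀ x ∈ K, ‖x‖ ≤ 1 := fun x hx => (pi_norm_le_iff_of_nonneg zero_le_one).2 fun j =>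
    le_of_le_of_eq (Finset.single_le_sum (f := fun j => |x j|) (fun _ _ => abs_nonneg _)
      (Finset.mem_univ j)) hx
  have K0 : ∀ x ∈ K, x ≠ 0 := fun x hx h => by simp [hK, h] at hx
  have Kc : IsCompact K := (isCompact_closedBall 0 1).of_isClosed_subset
    (isClosed_eq (by fun_prop) continuous_const) fun x hx => mem_closedBall_zero_iff.2 (K1 x hx)
  obtain ⟨c, c0, hc'⟩ := Kc.exists_forall_le' hg.norm.continuousOn
    fun x hx => norm_pos_iff.2 (hc x (K0 x hx))
  obtain ⟨η, η0, hη⟩ := Metric.uniformContinuousOn_iff.1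
    (Kc.uniformContinuousOn_of_continuous hg.continuousOn) c c0
  obtain ⟨N, hN⟩ := exists_nat_gt (2 * (k + 1) / η)
  have N0 : (0 : ℝ) < N := lt_trans (by positivity) hN
  obtain ⟨s0, hs0⟩ := bu_sign (X := Fin (k + 1) → ℝ)
  set G : ℕ → (Fin (k + 1) → ℝ) → ℝ := fun i x => if h : i < k then g x ⟨i, h⟩ else 0 with hG
  have Gn : ∀ i x, G i (-x) = -G i x := fun i x => by
    simp only [hG, odd]
    split_ifs <;> simp
  set e : ℕ → Fin (k + 1) → ℝ := fun m j => if j.val = m then 1 else 0 with he
  have eK : ∀ m ≤ k, ∑ j, e m j = 1 := fun m hm => by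
    rw [Finset.sum_eq_single ⟨m, by omega⟩ (fun j _ hj => if_neg fun h => hj (Fin.ext h))
      (by simp)]
    simp [he]
  have e1 : ∀ m, ‖e m‖ ≤ 1 := fun m => (pi_norm_le_iff_of_nonneg zero_le_one).2 fun j => by
    simp only [he]
    split_ifs <;> simp
  obtain ⟨l, ⟨hl, hlK, hd⟩, hB⟩ := bu_comb (e := e 0) (N := N) (n := k)
    (f := fun m i x => (1 - (i : ℝ) / N) • x + ((i : ℝ) / N) • e (m + 1))
    (fun m x => by simp) (fun m x => by simp [N0.ne'])
    (Good := fun m l => l.length = m + 1 ∧ (∀ x ∈ l, x ∈ K ∧ ∀ j, m < j.val → x j = 0) ∧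
      ∀ x ∈ l, ∀ y ∈ l, ‖x - y‖ ≤ m * (2 / N))
    ⟨rfl, fun x hx => by
      rw [List.mem_singleton.1 hx]
      refine ⟨(Finset.sum_congr rfl fun j _ => ?_).trans (eK 0 (Nat.zero_le _)),
        fun j hj => if_neg (by omega)⟩
      simp only [he]
      split_ifs <;> simp, by simp⟩
    (fun _ _ h => h.1)
    (fun m l h => ⟨by simpa using h.1, fun x hx => by
      obtain ⟨y, hy, rfl⟩ := List.mem_map.1 hx
      exact ⟨by simpa [hK] using (h.2.1 y hy).1, fun j hj => by simp [(h.2.1 y hy).2 j hj]⟩,
      fun x hx y hy => by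
      obtain ⟨x, hx', rfl⟩ := List.mem_map.1 hx
      obtain ⟨y, hy', rfl⟩ := List.mem_map.1 hy
      rw [neg_sub_neg]
      exact h.2.2 y hy' x hx'⟩)
    (fun m hm i hi l w h hw hz => by
      have key : ∀ z ∈ w, ∃ x ∈ l, ∃ τ : ℝ, (i : ℝ) / N ≤ τ ∧ τ ≤ i / N + 1 / N ∧
          z = (1 - τ) • x + τ • e (m + 1) := fun z hz' => by
        obtain ⟨x, hx, h1 | h1⟩ := hz z hz'
        · exact ⟨x, hx, _, le_rfl, le_add_of_nonneg_right (by positivity), h1⟩
        · refine ⟨x, hx, _, ?_, ?_, h1⟩
          · gcongr; omega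
          · push_cast; rw [add_div]
      have i0 : (0 : ℝ) ≤ i / N := by positivity
      have i1 : (i : ℝ) / N + 1 / N ≤ 1 := by
        rw [← add_div, div_le_one N0]
        exact_mod_cast hi
      refine ⟨by rw [hw, h.1], fun z hz' => ?_, fun z hz' z' hz'' => ?_⟩
      · obtain ⟨x, hx, τ, h1, h2, rfl⟩ := key z hz'
        obtain ⟨h3, h4⟩ := h.2.1 x hx
        refine ⟨?_, fun j hj => ?_⟩
        · have : ∀ j, |((1 - τ) • x + τ • e (m + 1)) j| = (1 - τ) * |x j| + τ * e (m + 1) j := by
            intro j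
            simp only [he, Pi.add_apply, Pi.smul_apply, smul_eq_mul]
            split_ifs with hj
            · rw [h4 j (by omega)]
              simp [abs_of_nonneg (i0.trans h1)]
            · simp [abs_mul, abs_of_nonneg (by linarith : 0 ≤ 1 - τ)]
          simp only [hK, Set.mem_ofPred_eq, this] at h3 ⊢
          rw [Finset.sum_add_distrib, ← Finset.mul_sum, ← Finset.mul_sum, h3, eK _ hm]
          ring
        · simp [he, h4 j (by omega), show j.val ≠ m + 1 by omega]
      · obtain ⟨x, hx, τ, h1, h2, rfl⟩ := key z hz'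
        obtain ⟨y, hy, τ', h1', h2', rfl⟩ := key z' hz''
        have e2 : (1 - τ) • x + τ • e (m + 1) - ((1 - τ') • y + τ' • e (m + 1)) =
            (1 - τ) • (x - y) + (τ - τ') • (e (m + 1) - y) := by module
        have h5 : |τ - τ'| ≤ 1 / N := abs_le.2 ⟨by linarith, by linarith⟩
        have h6 : ‖e (m + 1) - y‖ ≤ 2 :=
          (norm_sub_le _ _).trans (by linarith [e1 (m + 1), K1 y (h.2.1 y hy).1])
        have h7 := h.2.2 x hx y hy
        rw [e2]
        refine (norm_add_le _ _).trans ?_
        rw [norm_smul, norm_smul, Real.norm_eq_abs, Real.norm_eq_abs,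
          abs_of_nonneg (by linarith : 0 ≤ 1 - τ)]
        have h8 : (1 - τ) * ‖x - y‖ ≤ ‖x - y‖ :=
          mul_le_of_le_one_left (norm_nonneg _) (by linarith)
        have h9 : |τ - τ'| * ‖e (m + 1) - y‖ ≤ 1 / N * 2 := by gcongr
        have : ((m + 1 : ℕ) : ℝ) * (2 / N) = m * (2 / N) + 1 / N * 2 := by push_cast; ring
        linarith)
    (s := fun i x => if 0 < G i x then 1 else if G i x < 0 then 0 else s0 x)
    (fun m l h i x hx => by
      have hx0 : x ≠ -x := fun h' => K0 x (h.2.1 x hx).1 (by
        funext j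
        have := congrFun h' j
        simp only [Pi.neg_apply] at this
        simp only [Pi.zero_apply]
        linarith)
      simp only [Gn, Left.neg_pos_iff, Left.neg_neg_iff]
      rcases lt_trichotomy (G i x) 0 with h1 | h1 | h1
      · simp [h1, h1.not_gt]
      · simp [h1, hs0 x hx0]
      · simp [h1, h1.not_gt, bu_two])
  refine hB (buB_zero _ k l hl ?_)
  obtain ⟨x0, hx0⟩ := List.exists_mem_of_length_pos (l := l) (by omega)
  obtain ⟨i, hi⟩ : ∃ i, c ≤ |g x0 i| := by
    by_contra h
    push Not at h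
    exact (hc' x0 (hlK x0 hx0).1).not_gt ((pi_norm_lt_iff c0).2 h)
  have hη' : (k : ℝ) * (2 / N) < η := by
    rw [div_lt_iff₀ η0] at hN
    rw [← mul_div_assoc, div_lt_iff₀ N0]
    linarith
  have key : ∀ y ∈ l, |g y i - g x0 i| < c := fun y hy =>
    lt_of_le_of_lt (by rw [← Real.dist_eq]; exact dist_le_pi_dist _ _ i)
      (hη y (hlK y hy).1 x0 (hlK x0 hx0).1 (by
        rw [dist_eq_norm]
        exact (hd y hy x0 hx0).trans_lt hη'))
  refine ⟨i, i.2, fun x hx y hy => ?_⟩
  have h1 := abs_lt.1 (key x hx)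
  have h2 := abs_lt.1 (key y hy)
  simp only [hG, i.2, dif_pos, Fin.eta]
  rcases le_abs'.1 hi with h | h
  · rw [if_neg (by linarith), if_pos (by linarith), if_neg (by linarith), if_pos (by linarith)]
  · rw [if_pos (by linarith), if_pos (by linarith)]

end Vale.Agent.P209.C
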