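import Vale.Agent.P209N.C.Near

/-! P209N/C: the generating function of the iterate.
PLAN. `FF_deriv`: sum of derivatives; in direction h it is
∑ j, om (yy (mid v j)) (h j + h (j+1)) - om (h j) (v (j+1)) - om (v j) (h (j+1)); shift the index
(`Equiv.sum_comp (Equiv.addRight 1)`), v (j+1) - v (j-1) = 2 (mid v j - mid v (j-1)), `Near.right`.
`FD_crit`: test against `Pi.single j x`, `eq_zero_of_om`: z j = σ (z (j-1)) for z j = zz (mid v j), so
z (n : ZMod m) = σ^[n] (z 0).  If z 0 = 0 then all mid v j = 0, v (j+1) = - v j, v 0 = (-1)^m v 0. -/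

open Filter Topology Module

namespace Vale.Agent.P209.C

variable {E : Type} [NormedAddCommGroup E] [InnerProductSpace ℂ E] [NormedSpace ℝ E]
  [IsScalarTower ℝ ℂ E] [FiniteDimensional ℂ E] {σ : E → E} {m : ℕ} [NeZero m]

/-- the coordinate projections -/
noncomputable def big_pr (j : ZMod m) : (ZMod m → E) →L[ℝ] E := ContinuousLinearMap.proj j

/-- the midpoint as a linear map -/
noncomputable def big_midL (j : ZMod m) : (ZMod m → E) →L[ℝ] E :=
  (2⁻¹ : ℝ) • (big_pr j + big_pr (j + 1))

omit [FiniteDimensional ℂ E] [NeZero m] in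
theorem big_midL_apply (j : ZMod m) (v : ZMod m → E) : big_midL j v = mid v j := by
  show (2⁻¹ : ℝ) • (v j + v (j + 1)) = _
  rw [real_smul_eq, mid]
  norm_num

omit [FiniteDimensional ℂ E] [NeZero m] in
theorem big_mid_cont (j : ZMod m) : Continuous fun v : ZMod m → E => mid v j := by
  simp only [← big_midL_apply]
  exact (big_midL j).continuous

omit [NeZero m] in
theorem big_two (h : Near σ) (v : ZMod m → E) (j : ZMod m) :
    zz σ (mid v j) + σ (zz σ (mid v j)) = v j + v (j + 1) :=
  smul_right_injective E (by norm_num : (2⁻¹ : ℂ) ≠ 0) (h.right (mid v j))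

omit [FiniteDimensional ℂ E] [IsScalarTower ℝ ℂ E] in
theorem big_cont (h : Near σ) : Continuous σ := by
  have : LipschitzWith (1 / 2) (fun x => σ x - (1 : ℂ) • x) :=
    LipschitzWith.of_dist_le_mul fun x y => by
      rw [dist_eq_norm, dist_eq_norm]
      simpa using h.cl x y
  refine (this.continuous.add continuous_id).congr fun x => ?_
  simp

theorem big_zz_cont (h : Near σ) : Continuous (zz σ) :=
  (LipschitzWith.of_dist_le_mul (K := 2) fun x y => by
    rw [dist_eq_norm, dist_eq_norm]
    simpa using h.zz_lip x y).continuous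

omit [FiniteDimensional ℂ E] in
theorem big_FD_apply (v x : ZMod m → E) : FD m σ v x =
    ∑ j, 2 * om (zz σ (mid v j) - σ (zz σ (mid v (j - 1)))) (x j) := by
  rw [FD, _root_.sum_apply]
  rfl

theorem Near.FF_deriv (h : Near σ) (v : ZMod m → E) : HasFDerivAt (FF m σ) (FD m σ v) v := by
  have dL : ∀ L : (ZMod m → E) →L[ℝ] E, HasFDerivAt L L v := fun L => L.hasFDerivAt
  have key : ∀ j : ZMod m, HasFDerivAt (fun v : ZMod m → E => gf σ (mid v j) - om (v j) (v (j + 1)))
      (((2 : ℝ) • omL (yy σ (mid v j))).comp (big_midL j) -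
        (omL.precompR (ZMod m → E) (v j) (big_pr (j + 1)) +
          omL.precompL (ZMod m → E) (big_pr j) (v (j + 1)))) v := by
    intro j
    refine HasFDerivAt.sub ?_ ?_
    · have a := (h.gf_deriv (big_midL j v)).comp v (dL (big_midL j))
      simp only [Function.comp_def, big_midL_apply] at a
      exact a
    · exact omL.hasFDerivAt_of_bilinear (dL (big_pr j)) (dL (big_pr (j + 1)))
  have a := HasFDerivAt.fun_sum fun j (_ : j ∈ Finset.univ) => key j
  refine a.congr_fderiv (ContinuousLinearMap.ext fun x => ?_)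
  rw [big_FD_apply, _root_.sum_apply]
  have e1 : ∀ j : ZMod m, (((2 : ℝ) • omL (yy σ (mid v j))).comp (big_midL j) -
      (omL.precompR (ZMod m → E) (v j) (big_pr (j + 1)) +
        omL.precompL (ZMod m → E) (big_pr j) (v (j + 1)))) x =
      om (yy σ (mid v j) + v (j + 1)) (x j) + om (yy σ (mid v j) - v j) (x (j + 1)) := by
    intro j
    show 2 * om (yy σ (mid v j)) ((2⁻¹ : ℝ) • (x j + x (j + 1))) -
      (om (v j) (x (j + 1)) + om (x j) (v (j + 1))) = _
    rw [real_smul_eq, om_real_right, om_add_right, om_add_left, om_sub_left, om_symm (x j)]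
    ring
  simp only [e1]
  rw [Finset.sum_add_distrib, ← Equiv.sum_comp (Equiv.subRight (1 : ZMod m))
    fun j => om (yy σ (mid v j) - v j) (x (j + 1)), ← Finset.sum_add_distrib]
  refine Finset.sum_congr rfl fun j _ => ?_
  rw [Equiv.subRight_apply, sub_add_cancel, ← om_add_left, two_mul, ← om_add_left]
  congr 1
  have t1 := big_two h v j
  have t2 := big_two h v (j - 1)
  rw [sub_add_cancel] at t2
  rw [yy, yy, eq_sub_of_add_eq' t1.symm, eq_sub_of_add_eq t2.symm]
  abel

theorem Near.FD_cont (h : Near σ) : Continuous (FD m σ) := by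
  refine continuous_finsetSum _ fun j _ => Continuous.clm_comp ?_ continuous_const
  exact (omL.continuous.comp (((big_zz_cont h).comp (big_mid_cont j)).sub
    ((big_cont h).comp ((big_zz_cont h).comp (big_mid_cont _))))).const_smul (2 : ℝ)

theorem Near.FF_hom (h : Near σ) (c : ℝ) (v : ZMod m → E) :
    FF m σ (c • v) = c ^ 2 * FF m σ v := by
  rw [FF, FF, Finset.mul_sum]
  refine Finset.sum_congr rfl fun j _ => ?_
  have e : mid (c • v) j = (c : ℂ) • mid v j := by
    rw [← big_midL_apply, map_smul, big_midL_apply, real_smul_eq]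
  rw [e, h.gf_hom, Pi.smul_apply, Pi.smul_apply, real_smul_eq, real_smul_eq, om_smul_smul,
    Complex.norm_real, Real.norm_eq_abs, sq_abs, mul_sub]

theorem FF_cont {P : Type} [TopologicalSpace P] {τ : P → E → E}
    (hc : Continuous fun x : P × E => τ x.1 x.2) (h : ∀ p, Near (τ p)) :
    Continuous fun x : P × (ZMod m → E) => FF m (τ x.1) x.2 := by
  refine continuous_finsetSum _ fun j _ => Continuous.sub ?_ ?_
  · have a : Continuous fun x : P × (ZMod m → E) => zz (τ x.1) (mid x.2 j) :=
      (zz_cont hc h).comp (continuous_fst.prodMk ((big_mid_cont j).comp continuous_snd))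
    exact continuous_om.comp (a.prodMk (hc.comp (continuous_fst.prodMk a)))
  · have a : Continuous fun x : P × (ZMod m → E) => (x.2 j, x.2 (j + 1)) := by fun_prop
    exact continuous_om.comp a

theorem Near.FD_crit (h : Near σ) (hm : Odd m) {v : ZMod m → E} (hv : v ≠ 0)
    (h0 : FD m σ v = 0) : ∃ z, z ≠ 0 ∧ σ^[m] z = z ∧ mid v 0 = (2⁻¹ : ℂ) • (z + σ z) := by
  have step : ∀ j, zz σ (mid v (j + 1)) = σ (zz σ (mid v j)) := by
    intro j
    rw [← sub_eq_zero]
    refine eq_zero_of_om fun x => ?_
    have a := big_FD_apply (σ := σ) v (Pi.single (j + 1) x)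
    rw [h0, Finset.sum_eq_single (j + 1), Pi.single_eq_same, add_sub_cancel_right] at a
    · have : (0 : ℝ) = _ := a
      linarith
    · intro i _ hi
      rw [Pi.single_eq_of_ne hi, om_zero_right, mul_zero]
    · simp
  have iter : ∀ n : ℕ, zz σ (mid v n) = σ^[n] (zz σ (mid v 0)) := by
    intro n
    induction n with
    | zero => simp
    | succ n ih => rw [Nat.cast_succ, step, ih, Function.iterate_succ_apply']
  refine ⟨zz σ (mid v 0), fun hz => hv (funext fun j => ?_), ?_, (h.right _).symm⟩
  · have s0 : σ 0 = 0 := by simpa using h.hom 0 0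
    have z0 : ∀ i : ZMod m, v (i + 1) = -v i := by
      intro i
      have a := iter i.val
      rw [ZMod.natCast_zmod_val, hz, Function.iterate_fixed s0] at a
      have b := big_two h v i
      rw [a, s0, add_zero] at b
      exact eq_neg_of_add_eq_zero_right b.symm
    have z1 : ∀ n : ℕ, v (j + n) = (-1 : ℂ) ^ n • v j := by
      intro n
      induction n with
      | zero => simp
      | succ n ih => rw [Nat.cast_succ, ← add_assoc, z0, ih, pow_succ, mul_neg_one, neg_smul]
    have z2 := z1 m
    rw [ZMod.natCast_self, add_zero, hm.neg_one_pow, neg_one_smul] at z2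
    have z3 : (2 : ℂ) • v j = 0 := by rw [two_smul]; exact add_eq_zero_iff_eq_neg.2 z2
    exact (smul_eq_zero.1 z3).resolve_left two_ne_zero
  · rw [← iter, ZMod.natCast_self]

end Vale.Agent.P209.C
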