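import Mathlib

/-! P209N/C: the interface between the Hamiltonian half and the generating function half. -/

namespace Vale.Agent.P209.C

/-- `exp (2 π i s)` -/
noncomputable def ex (s : ℝ) : ℂ := Complex.exp (2 * Real.pi * s * Complex.I)

variable {E : Type} [NormedAddCommGroup E] [InnerProductSpace ℂ E]

/-- the symplectic form -/
noncomputable def om (u v : E) : ℝ := (inner ℂ u v).im

/-- a conical flow whose twisted fixed points lie on two lines -/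
structure Flow (Φ : ℝ → E → E) (a b : ℝ) (p q : E) : Prop where
  cont : ContinuousOn (fun x : ℝ × E => Φ x.1 x.2) (Set.Icc 0 1 ×ˢ Set.univ)
  lip : ∃ C : ℝ, 0 < C ∧ ∀ τ ∈ Set.Icc (0 : ℝ) 1, ∀ x y,
    ‖Φ τ x - Φ τ y - (x - y)‖ ≤ C * τ * ‖x - y‖
  hom : ∀ t (c : ℂ) w, Φ t (c • w) = c • Φ t w
  zero : ∀ w, Φ 0 w = w
  add : ∀ s t w, Φ (s + t) w = Φ s (Φ t w)
  sym : ∀ t ∈ Set.Icc (0 : ℝ) 1, ∃ C : ℝ, ∀ x y, |om (Φ t x) (Φ t y) - om x y| ≤ C * ‖x - y‖ ^ 2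
  p0 : p ≠ 0
  q0 : q ≠ 0
  rp : ∀ t, Φ t p = ex (-(t * a)) • p
  rq : ∀ t, Φ t q = ex (t * b) • q
  fix : ∀ t s w, 0 < t → t ≤ 1 → 0 < s → s < 1 → w ≠ 0 → Φ t w = ex s • w →
    (s = 1 - t * a ∧ ∃ c : ℂ, w = c • p) ∨ (s = t * b ∧ ∃ c : ℂ, w = c • q)

/-- the set `A` has genus at most `k` -/
def Gen {X : Type} [NormedAddCommGroup X] (A : Set X) (k : ℕ) : Prop :=
  ∃ g : X → Fin k → ℝ, Continuous g ∧ (∀ x, g (-x) = -g x) ∧ ∀ x ∈ A, x ≠ 0 → g x ≠ 0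

end Vale.Agent.P209.C
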