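import Vale.Agent.P209N.C.Defs

/-! P209N/C: generating functions, definitions and basic facts on `om` and `ex`. -/

open Filter Topology

namespace Vale.Agent.P209.C

theorem ex_add (s t : ℝ) : ex (s + t) = ex s * ex t := by
  unfold ex
  rw [← Complex.exp_add]
  congr 1
  push_cast
  ring

theorem ex_zero : ex 0 = 1 := by simp [ex]

theorem ex_eq (s : ℝ) : ex s = Complex.exp (((2 * Real.pi * s : ℝ) : ℂ) * Complex.I) := by
  unfold ex
  push_cast
  rfl

theorem norm_ex (s : ℝ) : ‖ex s‖ = 1 := by rw [ex_eq, Complex.norm_exp_ofReal_mul_I]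

theorem ex_im (s : ℝ) : (ex s).im = Real.sin (2 * Real.pi * s) := by
  rw [ex_eq, Complex.exp_ofReal_mul_I_im]

theorem ex_re (s : ℝ) : (ex s).re = Real.cos (2 * Real.pi * s) := by
  rw [ex_eq, Complex.exp_ofReal_mul_I_re]

theorem ex_one : ex 1 = 1 := by
  unfold ex
  rw [Complex.ofReal_one, mul_one]
  exact Complex.exp_two_pi_mul_I

theorem ex_pow (s : ℝ) (k : ℕ) : ex s ^ k = ex (k * s) := by
  induction k with
  | zero => simp [ex_zero]
  | succ k ih => rw [pow_succ, ih, ← ex_add]; congr 1; push_cast; ring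

theorem continuous_ex : Continuous ex := by unfold ex; fun_prop

theorem norm_ex_sub (s t : ℝ) : ‖ex s - ex t‖ ≤ 7 * |s - t| := by
  have e : ex s - ex t = ex t * (ex (s - t) - 1) := by
    rw [mul_sub, ← ex_add, mul_one, add_sub_cancel]
  rw [e, norm_mul, norm_ex, one_mul, ex_eq, mul_comm _ Complex.I]
  refine (Real.norm_exp_I_mul_ofReal_sub_one_le).trans ?_
  rw [Real.norm_eq_abs, abs_mul, abs_of_pos (by positivity : 0 < 2 * Real.pi)]
  exact mul_le_mul_of_nonneg_right (by linarith [Real.pi_lt_d2]) (abs_nonneg _)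

variable {E : Type} [NormedAddCommGroup E] [InnerProductSpace ℂ E]

theorem om_self (u : E) : om u u = 0 := inner_self_im (𝕜 := ℂ) u

theorem om_symm (u v : E) : om u v = -om v u := by
  unfold om
  rw [← inner_conj_symm u v, Complex.conj_im]

theorem om_add_left (u u' v : E) : om (u + u') v = om u v + om u' v := by
  simp [om]

theorem om_add_right (u v v' : E) : om u (v + v') = om u v + om u v' := by
  simp [om]

theorem om_sub_left (u u' v : E) : om (u - u') v = om u v - om u' v := by
  simp [om]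

theorem om_sub_right (u v v' : E) : om u (v - v') = om u v - om u v' := by
  simp [om]

theorem om_zero_left (v : E) : om 0 v = 0 := by simp [om]

theorem om_zero_right (v : E) : om v 0 = 0 := by simp [om]

theorem om_real_left (r : ℝ) (u v : E) : om ((r : ℂ) • u) v = r * om u v := by
  simp [om]

theorem om_real_right (r : ℝ) (u v : E) : om u ((r : ℂ) • v) = r * om u v := by
  simp [om]

theorem om_smul_smul (c : ℂ) (u v : E) : om (c • u) (c • v) = ‖c‖ ^ 2 * om u v := by
  unfold om
  rw [inner_smul_left, inner_smul_right, ← mul_assoc, Complex.conj_mul', ← Complex.ofReal_pow,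
    Complex.im_ofReal_mul]

theorem om_self_smul (c : ℂ) (u : E) : om u (c • u) = c.im * ‖u‖ ^ 2 := by
  unfold om
  rw [inner_smul_right, inner_self_eq_norm_sq_to_K, ← RCLike.ofReal_pow]
  exact Complex.im_mul_ofReal _ _

theorem abs_om_le (u v : E) : |om u v| ≤ ‖u‖ * ‖v‖ :=
  (Complex.abs_im_le_norm _).trans (norm_inner_le_norm u v)

theorem continuous_om : Continuous fun x : E × E => om x.1 x.2 :=
  Complex.continuous_im.comp continuous_inner

theorem eq_zero_of_om {u : E} (h : ∀ v, om u v = 0) : u = 0 := by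
  have h1 := h (Complex.I • u)
  rw [om_self_smul, Complex.I_im, one_mul] at h1
  exact norm_eq_zero.1 (pow_eq_zero_iff two_ne_zero |>.1 h1)

/-- the inverse of `(id + σ) / 2` -/
noncomputable def zz (σ : E → E) (w : E) : E :=
  Function.invFun (fun z => (2⁻¹ : ℂ) • (z + σ z)) w

/-- the generating function of `σ` -/
noncomputable def gf (σ : E → E) (w : E) : ℝ := om (zz σ w) (σ (zz σ w))

/-- the twisted gradient of `gf` -/
noncomputable def yy (σ : E → E) (w : E) : E := zz σ w - σ (zz σ w)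

/-- the generating function of a rotation -/
noncomputable def kq (u : ℂ) : ℝ := 4 * u.im / ‖1 + u‖ ^ 2

/-- `σ - u` is Lipschitz with constant `ε` -/
def Cl (σ : E → E) (u : ℂ) (ε : ℝ) : Prop :=
  ∀ x y, ‖(σ x - u • x) - (σ y - u • y)‖ ≤ ε * ‖x - y‖

/-- midpoints -/
noncomputable def mid {m : ℕ} (v : ZMod m → E) (j : ZMod m) : E := (2⁻¹ : ℂ) • (v j + v (j + 1))

/-- the generating function of the `m`-th iterate -/
noncomputable def FF (m : ℕ) [NeZero m] (σ : E → E) (v : ZMod m → E) : ℝ :=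
  ∑ j, (gf σ (mid v j) - om (v j) (v (j + 1)))

/-- the character -/
noncomputable def ch {m : ℕ} [NeZero m] (κ : ZMod m) : ℂ := ZMod.stdAddChar (-κ)

/-- the eigenvalues -/
noncomputable def lamb {m : ℕ} [NeZero m] (u : ℂ) (κ : ZMod m) : ℝ :=
  kq u * ‖(2⁻¹ : ℂ) * (1 + ch κ)‖ ^ 2 - (ch κ).im

/-- clamp -/
noncomputable def cl (x : ℝ) : ℝ := max 0 (min 1 x)

/-- the family of small steps -/
noncomputable def sg (Φ : ℝ → E → E) (m : ℕ) (r : ℝ × ℝ) (w : E) : E :=
  ex (-(cl r.2 / m)) • Φ (cl r.1 / m) w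

/-- conical exact maps close to the identity -/
structure Near (σ : E → E) : Prop where
  cl : Cl σ 1 (1 / 2)
  hom : ∀ (c : ℂ) w, σ (c • w) = c • σ w
  sym : ∃ C : ℝ, ∀ x y, |om (σ x) (σ y) - om x y| ≤ C * ‖x - y‖ ^ 2

variable [NormedSpace ℝ E] [IsScalarTower ℝ ℂ E]

theorem real_smul_eq (r : ℝ) (u : E) : r • u = (r : ℂ) • u :=
  RCLike.real_smul_eq_coe_smul (K := ℂ) r u

/-- the symplectic form as a continuous bilinear map -/
noncomputable def omL : E →L[ℝ] E →L[ℝ] ℝ :=
  LinearMap.mkContinuous₂ (LinearMap.mk₂ ℝ om om_add_left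
    (fun r u v => by rw [real_smul_eq, om_real_left, smul_eq_mul]) om_add_right
    (fun r u v => by rw [real_smul_eq, om_real_right, smul_eq_mul])) 1
    fun u v => by rw [one_mul]; exact abs_om_le u v

theorem omL_apply (u v : E) : omL u v = om u v := rfl

/-- the derivative of `FF` -/
noncomputable def FD (m : ℕ) [NeZero m] (σ : E → E) (v : ZMod m → E) :
    (ZMod m → E) →L[ℝ] ℝ :=
  ∑ j, ((2 : ℝ) • omL (zz σ (mid v j) - σ (zz σ (mid v (j - 1))))).comp (ContinuousLinearMap.proj j)

end Vale.Agent.P209.C
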