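import Vale.Agent.P209N.C.BU

/-! P209N/C: the genus: bounds, deformation, continuation.
PLAN. `gen_of_lin`: compose P with W ≃ (Fin d → ℂ) (`Module.finBasis`, `Basis.equivFun`) and take real
and imaginary parts (`finProdFinEquiv` or i ↦ (i / 2, i % 2)); P is continuous (finite dimension).
`Gen.dim_le`: if k < 2 d, build an injective real linear map (Fin (k+1) → ℝ) → W (extend by zero,
pair the coordinates to complex numbers, basis), compose with L and g, apply `borsuk`.
`deform`: b = Module.finBasis ℝ X, Y x = ∑ i, F' x (b i) • b i, so F' x (Y x) = ∑ (F' x (b i))^2 > 0 if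
F' x ≠ 0.  F' (c • x) = c • F' x for c ≠ 0 (differentiate `hom`, `HasFDerivAt.unique`).
Z = unit sphere ∩ ker g0 is compact and F' ≠ 0 there.  (η, x) ↦ F' (x - η Y x) (Y x) is continuous and
positive for η = 0, so (`IsCompact.eventually_forall_of_forall_eventually`) positive for |η| ≤ η0, x ∈ Z,
hence F p0 (T x) < F p0 x on Z for T x = x - η0 Y x (`strictAntiOn_of_deriv_neg`).  The open condition
0 < F p x ∨ F p' (T x) < 0 holds at p = p' = p0 on Z, so near (p0, p0) (tube lemma again).  T is odd,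
continuous, T (c • x) = c • T x.  New map: x ↦ Fin.append (g (T x)) (coordinates of g0 x).
F p 0 = 0 by `hom` with c = 0, so F p' (T x) < 0 gives T x ≠ 0.
`gen_chain`: `deform` with W = Fin 0 → ℝ, g0 = 0, then `IsPreconnected.induction₂'`. -/

open Filter Topology Module

namespace Vale.Agent.P209.C

theorem genl_real {X V : Type} [NormedAddCommGroup X] [NormedAddCommGroup V] [NormedSpace ℝ V]
    [FiniteDimensional ℝ V] {A : Set X} {k : ℕ} (hk : finrank ℝ V = k) {g : X → V}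
    (hg : Continuous g) (odd : ∀ x, g (-x) = -g x) (h : ∀ x ∈ A, x ≠ 0 → g x ≠ 0) : Gen A k := by
  let e : V ≃L[ℝ] (Fin k → ℝ) := ContinuousLinearEquiv.ofFinrankEq (by simpa using hk)
  exact ⟨fun x => e (g x), e.continuous.comp hg, fun x => by simp only [odd, map_neg],
    fun x hx h0 h1 => h x hx h0 (e.map_eq_zero_iff.1 h1)⟩

section

variable {X W : Type} [NormedAddCommGroup X] [NormedSpace ℂ X] [FiniteDimensional ℂ X]
  [AddCommGroup W] [Module ℂ W] [FiniteDimensional ℂ W] {A : Set X}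

theorem gen_of_lin (P : X →ₗ[ℂ] W) (h : ∀ x ∈ A, x ≠ 0 → P x ≠ 0) :
    Gen A (2 * finrank ℂ W) := by
  let e := (Module.finBasis ℂ W).equivFun
  refine genl_real (V := Fin (finrank ℂ W) → ℂ) (by rw [finrank_real_of_complex]; simp)
    (g := e.toLinearMap ∘ₗ P) (LinearMap.continuous_of_finiteDimensional _) (map_neg _)
    fun x hx h0 h1 => h x hx h0 (e.map_eq_zero_iff.1 h1)

theorem Gen.dim_le {k : ℕ} (h : Gen A k) (L : W →ₗ[ℂ] X) (hL : Function.Injective L)
    (hA : ∀ y, L y ∈ A) : 2 * finrank ℂ W ≤ k := by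
  by_contra hk
  obtain ⟨g, hg, odd, h0⟩ := h
  let e := (Module.finBasis ℂ W).equivFun
  obtain ⟨j, hj⟩ := (finrank_le_iff_exists_linearMap (R := ℝ) (M := Fin (k + 1) → ℝ)
    (M' := Fin (finrank ℂ W) → ℂ)).1 (by rw [finrank_real_of_complex]; simpa using hk)
  obtain ⟨x, x0, hx⟩ := borsuk (fun x => g ((L ∘ₗ e.symm.toLinearMap) (j x)))
    (hg.comp ((LinearMap.continuous_of_finiteDimensional _).comp
      j.continuous_of_finiteDimensional)) fun x => by simp only [map_neg, odd]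
  refine h0 _ (hA _) (fun h1 => x0 ?_) hx
  exact (map_eq_zero_iff j hj).1 (e.symm.map_eq_zero_iff.1 ((map_eq_zero_iff L hL).1 h1))

end

variable {X W P : Type} [NormedAddCommGroup X] [NormedSpace ℝ X] [FiniteDimensional ℝ X]
  [NormedAddCommGroup W] [NormedSpace ℝ W] [FiniteDimensional ℝ W] [TopologicalSpace P]
  {F : P → X → ℝ}

omit [FiniteDimensional ℝ X] [TopologicalSpace P] in
theorem genl_hom (hom : ∀ p (c : ℝ) x, F p (c • x) = c ^ 2 * F p x) {p0 : P}
    {F' : X → X →L[ℝ] ℝ} (hF : ∀ x, HasFDerivAt (F p0) (F' x) x) {c : ℝ} (hc : c ≠ 0) (x v : X) :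
    F' (c • x) v = c * F' x v := by
  have h1 := (hF (c • x)).comp x ((hasFDerivAt_id x).const_smul c)
  have h2 := (hF x).const_mul (c ^ 2)
  have h3 : F p0 ∘ HSMul.hSMul c = fun y => c ^ 2 * F p0 y := funext fun y => hom p0 c y
  rw [h3] at h1
  have h4 := DFunLike.congr_fun (h1.unique h2) v
  simp only [ContinuousLinearMap.comp_apply, smul_apply,
    ContinuousLinearMap.id_apply, map_smul, smul_eq_mul] at h4
  exact mul_left_cancel₀ hc (by rw [h4]; ring)

omit [FiniteDimensional ℝ W] [TopologicalSpace P] in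
theorem genl_push (hom : ∀ p (c : ℝ) x, F p (c • x) = c ^ 2 * F p x) {p0 : P}
    {F' : X → X →L[ℝ] ℝ} (hF : ∀ x, HasFDerivAt (F p0) (F' x) x) (hF' : Continuous F')
    (g0 : X →ₗ[ℝ] W) (hg0 : ∀ x, x ≠ 0 → F' x = 0 → g0 x ≠ 0) :
    ∃ T : X → X, Continuous T ∧ (∀ c : ℝ, c ≠ 0 → ∀ x, T (c • x) = c • T x) ∧
      ∀ x ∈ Metric.sphere (0 : X) 1 ∩ {x | g0 x = 0}, F p0 (T x) < F p0 x := by
  let b := Module.finBasis ℝ X
  let Y : X → X := fun x => ∑ i, F' x (b i) • b i
  have cY : Continuous Y := by fun_prop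
  have Y1 : ∀ c : ℝ, c ≠ 0 → ∀ x, Y (c • x) = c • Y x := fun c hc x => by
    simp only [Y, genl_hom hom hF hc, Finset.smul_sum, smul_smul]
  have Y2 : ∀ x, F' x ≠ 0 → 0 < F' x (Y x) := fun x hx => by
    simp only [Y, map_sum, map_smul, smul_eq_mul]
    refine (Finset.sum_nonneg fun i _ => mul_self_nonneg _).lt_of_ne fun h => hx ?_
    have h1 := (Finset.sum_eq_zero_iff_of_nonneg fun i _ => mul_self_nonneg _).1 h.symm
    exact ContinuousLinearMap.coe_injective
      (b.ext fun i => mul_self_eq_zero.1 (h1 i (Finset.mem_univ i)))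
  have cZ : IsCompact (Metric.sphere (0 : X) 1 ∩ {x | g0 x = 0}) :=
    (isCompact_sphere 0 1).inter_right
      (isClosed_eq g0.continuous_of_finiteDimensional continuous_const)
  have h1 := cZ.eventually_forall_of_forall_eventually (x₀ := (0 : ℝ))
    (P := fun η x => 0 < F' (x - η • Y x) (Y x)) fun x hx => by
      refine IsOpen.mem_nhds (isOpen_lt continuous_const (by fun_prop)) ?_
      have x0 : x ≠ 0 := fun h => by simpa [h] using hx.1
      simpa using Y2 x fun h => hg0 x x0 h hx.2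
  obtain ⟨ε, e0, h2⟩ := Metric.eventually_nhds_iff.1 h1
  refine ⟨fun x => x - (ε / 2) • Y x, by fun_prop, fun c hc x => ?_, fun x hx => ?_⟩
  · simp only [Y1 c hc, smul_sub, smul_comm c]
  · have h3 : ∀ η : ℝ, HasDerivAt (fun η : ℝ => F p0 (x - η • Y x))
        (F' (x - η • Y x) (-Y x)) η := fun η =>
      (hF _).comp_hasDerivAt η (by simpa using ((hasDerivAt_id η).smul_const (Y x)).const_sub x)
    obtain ⟨c, ⟨c0, c1⟩, h4⟩ := exists_hasDerivAt_eq_slope _ _ (half_pos e0)
      (fun η _ => (h3 η).continuousAt.continuousWithinAt) fun η _ => h3 η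
    have h5 := h2 (y := c) (by rw [Real.dist_eq, sub_zero, abs_of_pos c0]; linarith) x hx
    rw [map_neg, zero_smul, sub_zero, sub_zero, eq_div_iff (half_pos e0).ne'] at h4
    have := mul_pos h5 (half_pos e0)
    linarith

theorem deform (hc : Continuous fun x : P × X => F x.1 x.2)
    (hom : ∀ p (c : ℝ) x, F p (c • x) = c ^ 2 * F p x) {p0 : P} {F' : X → X →L[ℝ] ℝ}
    (hF : ∀ x, HasFDerivAt (F p0) (F' x) x) (hF' : Continuous F') (g0 : X →ₗ[ℝ] W)
    (hg0 : ∀ x, x ≠ 0 → F' x = 0 → g0 x ≠ 0) : ∀ᶠ r in 𝓝 (p0, p0), ∀ k,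
      Gen {x | F r.2 x ≤ 0} k → Gen {x | F r.1 x ≤ 0} (k + finrank ℝ W) := by
  obtain ⟨T, hT, T1, T2⟩ := genl_push hom hF hF' g0 hg0
  have cZ : IsCompact (Metric.sphere (0 : X) 1 ∩ {x | g0 x = 0}) :=
    (isCompact_sphere 0 1).inter_right
      (isClosed_eq g0.continuous_of_finiteDimensional continuous_const)
  have h1 := cZ.eventually_forall_of_forall_eventually (x₀ := (p0, p0))
    (P := fun r x => 0 < F r.1 x ∨ F r.2 (T x) < 0) fun x hx => by
      refine IsOpen.mem_nhds (IsOpen.union (isOpen_lt continuous_const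
        (hc.comp (continuous_fst.fst.prodMk continuous_snd))) (isOpen_lt
        (hc.comp (continuous_fst.snd.prodMk (hT.comp continuous_snd))) continuous_const)) ?_
      exact (lt_or_ge 0 (F p0 x)).imp id fun h => (T2 x hx).trans_le h
  filter_upwards [h1] with r hr k ⟨g, hg, odd, h0⟩
  refine genl_real (V := (Fin k → ℝ) × W) (by simp) (g := fun x => (g (T x), g0 x))
    ((hg.comp hT).prodMk g0.continuous_of_finiteDimensional) (fun x => ?_) fun x hx x0 h2 => ?_
  · have := T1 (-1) (by norm_num) x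
    simp only [neg_smul, one_smul] at this
    simp only [this, odd, map_neg, Prod.neg_mk]
  · obtain ⟨h3, h4⟩ := Prod.mk_eq_zero.1 h2
    have n0 : ‖x‖⁻¹ ≠ 0 := inv_ne_zero (norm_ne_zero_iff.2 x0)
    have n1 : 0 < ‖x‖⁻¹ ^ 2 := by positivity
    have h5 := hr (‖x‖⁻¹ • x) ⟨by simp [norm_smul, x0], by simp [h4]⟩
    rw [T1 _ n0, hom, hom] at h5
    have h6 : F r.2 (T x) < 0 := h5.elim
      (fun h => absurd (((mul_pos_iff_of_pos_left n1).1 h).trans_le hx) (lt_irrefl _))
      fun h => neg_of_mul_neg_right h n1.le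
    refine h0 _ h6.le (fun h7 => ?_) h3
    have h8 := hom r.2 0 0
    rw [h7, ← zero_smul ℝ (0 : X), h8] at h6
    simp at h6

theorem gen_chain (hc : Continuous fun x : P × X => F x.1 x.2)
    (hom : ∀ p (c : ℝ) x, F p (c • x) = c ^ 2 * F p x) {S : Set P} (hS : IsPreconnected S)
    (h : ∀ p ∈ S, ∃ F' : X → X →L[ℝ] ℝ, (∀ x, HasFDerivAt (F p) (F' x) x) ∧ Continuous F' ∧
      ∀ x, x ≠ 0 → F' x ≠ 0) {p p' : P} (hp : p ∈ S) (hp' : p' ∈ S) {k : ℕ}
    (hk : Gen {x | F p x ≤ 0} k) : Gen {x | F p' x ≤ 0} k := by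
  refine hS.induction₂' (fun a b => ∀ k, Gen {x | F a x ≤ 0} k → Gen {x | F b x ≤ 0} k)
    (fun a ha => ?_) (fun _ _ _ _ _ _ h1 h2 k h3 => h2 k (h1 k h3)) hp hp' k hk
  obtain ⟨F', h1, h2, h3⟩ := h a ha
  have h4 := deform (W := Fin 0 → ℝ) hc hom h1 h2 0 fun x hx h5 => (h3 x hx h5).elim
  simp only [finrank_fin_fun, add_zero] at h4
  have c1 : Tendsto (fun b => (b, a)) (𝓝 a) (𝓝 (a, a)) :=
    (continuous_id.prodMk continuous_const).tendsto a
  have c2 : Tendsto (fun b => (a, b)) (𝓝 a) (𝓝 (a, a)) :=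
    (continuous_const.prodMk continuous_id).tendsto a
  exact ((c1.eventually h4).and (c2.eventually h4)).filter_mono nhdsWithin_le_nhds

end Vale.Agent.P209.C
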