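import Vale.Agent.P209N.C.Mode
import Vale.Agent.P209N.C.GenL

/-! P209N/C: the genus at the two end points.
PLAN. m = 2 M + 1.  `low`: ε with 8 ε < lamb 1 κ for 1 ≤ κ.val ≤ M (finitely many), `sg_cl` at s0 = 0,
pick (t, t b / 2) close to (0, 0).  sg q = ex ((t b - s)/m) • q.  P v = (the modes M+1+i of
dft.symm v, class of the mode 0 in E ⧸ span {q}); if P v = 0 and v ≠ 0 then `FF_split` (κ0 = 0) gives
FF > 0.  `gen_of_lin`, `finrank_prod`, `finrank_pi_fintype`, `Submodule.finrank_quotient_add_finrank`.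
`high`: s0 = 1, (t, 1 - t a / 2), sg p = ex (-(s + t a)/m) • p, L (y, c) = dft of the family with
mode 1 equal to c • p, modes 0 and M+1+i given by y : Fin (M+1) → E, other modes zero; `Gen.dim_le`. -/

open Filter Topology Module

namespace Vale.Agent.P209.C

variable {E : Type} [NormedAddCommGroup E] [InnerProductSpace ℂ E] [NormedSpace ℝ E]
  [IsScalarTower ℝ ℂ E] [FiniteDimensional ℂ E] {Φ : ℝ → E → E} {a b : ℝ} {p q : E} {M : ℕ}

theorem ends_eps {ι : Type} [Finite ι] (f : ι → ℝ) (P : ι → Prop) (h : ∀ i, P i → 0 < f i) :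
    ∃ ε : ℝ, 0 < ε ∧ ∀ i, P i → 8 * ε < f i := by
  have h1 : ∀ᶠ ε in 𝓝[>] (0 : ℝ), ∀ i, P i → 8 * ε < f i := by
    refine eventually_all.2 fun i => ?_
    by_cases hi : P i
    · have h2 : ∀ᶠ ε in 𝓝 (0 : ℝ), 8 * ε < f i :=
        ContinuousAt.eventually_lt (f := fun ε : ℝ => 8 * ε) (g := fun _ => f i) (by fun_prop)
          (by fun_prop) (by simpa using h i hi)
      exact (h2.filter_mono nhdsWithin_le_nhds).mono fun ε hε _ => hε
    · exact Eventually.of_forall fun ε h' => absurd h' hi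
  obtain ⟨ε, h2, h3⟩ := (h1.and self_mem_nhdsWithin).exists
  exact ⟨ε, h3, h2⟩

theorem ends_card (n : ℕ) (P : ℕ → Prop) [DecidablePred P] :
    Fintype.card {κ : ZMod (n + 1) // P κ.val} = ((Finset.range (n + 1)).filter P).card := by
  rw [Fintype.card_subtype]
  refine Finset.card_bij (fun κ _ => κ.val) (fun κ hκ => ?_) (fun κ _ κ' _ h => ZMod.val_injective _ h)
    fun j hj => ?_
  · exact Finset.mem_filter.2 ⟨Finset.mem_range.2 (ZMod.val_lt κ), (Finset.mem_filter.1 hκ).2⟩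
  · obtain ⟨h1, h2⟩ := Finset.mem_filter.1 hj
    have h3 : ((j : ZMod (n + 1))).val = j := ZMod.val_cast_of_lt (Finset.mem_range.1 h1)
    exact ⟨(j : ZMod (n + 1)), Finset.mem_filter.2 ⟨Finset.mem_univ _, by rw [h3]; exact h2⟩, h3⟩

theorem ends_card_low (M : ℕ) : Fintype.card {κ : ZMod (2 * M + 1) // M < κ.val} = M := by
  rw [ends_card (2 * M) (fun j => M < j)]
  have e : (Finset.range (2 * M + 1)).filter (fun j => M < j) = Finset.Ioc M (2 * M) := by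
    ext j
    simp only [Finset.mem_filter, Finset.mem_range, Finset.mem_Ioc]
    omega
  rw [e, Nat.card_Ioc]
  omega

theorem ends_card_high (M : ℕ) :
    Fintype.card {κ : ZMod (2 * M + 1) // κ.val = 0 ∨ M < κ.val} = M + 1 := by
  rw [ends_card (2 * M) (fun j => j = 0 ∨ M < j)]
  have e : (Finset.range (2 * M + 1)).filter (fun j => j = 0 ∨ M < j) =
      insert 0 (Finset.Ioc M (2 * M)) := by
    ext j
    simp only [Finset.mem_filter, Finset.mem_range, Finset.mem_Ioc, Finset.mem_insert]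
    omega
  rw [e, Finset.card_insert_of_notMem (by simp), Nat.card_Ioc]
  omega

theorem ends_pos {ι V : Type} [Fintype ι] [DecidableEq ι] [NormedAddCommGroup V] {x : ι → V}
    {l : ι → ℝ} {κ0 : ι} {l0 ε F m : ℝ} (hm : 0 < m) (hl0 : 0 < l0)
    (hl : ∀ κ, κ ≠ κ0 → x κ = 0 ∨ 8 * ε < l κ) (hx : x ≠ 0)
    (h : |F - m * (l0 * ‖x κ0‖ ^ 2 + ∑ κ ∈ Finset.univ.erase κ0, l κ * ‖x κ‖ ^ 2)| ≤
      8 * ε * (m * ∑ κ ∈ Finset.univ.erase κ0, ‖x κ‖ ^ 2)) : 0 < F := by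
  have h1 := (abs_le.1 h).1
  have h2 : ∀ κ ∈ Finset.univ.erase κ0, 0 ≤ (l κ - 8 * ε) * ‖x κ‖ ^ 2 := by
    intro κ hκ
    rcases hl κ (Finset.ne_of_mem_erase hκ) with h3 | h3
    · simp [h3]
    · exact mul_nonneg (by linarith) (by positivity)
  have h3 : ∑ κ ∈ Finset.univ.erase κ0, (l κ - 8 * ε) * ‖x κ‖ ^ 2 =
      ∑ κ ∈ Finset.univ.erase κ0, l κ * ‖x κ‖ ^ 2 - 8 * ε * ∑ κ ∈ Finset.univ.erase κ0, ‖x κ‖ ^ 2 := by
    rw [Finset.mul_sum, ← Finset.sum_sub_distrib]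
    exact Finset.sum_congr rfl fun κ _ => by ring
  have h4 : 0 < l0 * ‖x κ0‖ ^ 2 + ∑ κ ∈ Finset.univ.erase κ0, (l κ - 8 * ε) * ‖x κ‖ ^ 2 := by
    obtain ⟨κ, hκ⟩ := Function.ne_iff.1 hx
    have hκ' : 0 < ‖x κ‖ ^ 2 := pow_pos (norm_pos_iff.2 hκ) 2
    by_cases e : κ = κ0
    · subst e
      exact add_pos_of_pos_of_nonneg (mul_pos hl0 hκ') (Finset.sum_nonneg h2)
    · refine add_pos_of_nonneg_of_pos (by positivity) (Finset.sum_pos' h2 ⟨κ, by simp [e], ?_⟩)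
      rcases hl κ e with h5 | h5
      · exact absurd h5 hκ
      · exact mul_pos (by linarith) hκ'
  rw [h3] at h4
  have h5 := mul_pos hm h4
  nlinarith

theorem ends_neg {ι V : Type} [Fintype ι] [DecidableEq ι] [NormedAddCommGroup V] {x : ι → V}
    {l : ι → ℝ} {κ0 : ι} {l0 ε F m : ℝ} (hm : 0 < m) (hl0 : l0 < 0)
    (hl : ∀ κ, κ ≠ κ0 → x κ = 0 ∨ 8 * ε < -l κ)
    (h : |F - m * (l0 * ‖x κ0‖ ^ 2 + ∑ κ ∈ Finset.univ.erase κ0, l κ * ‖x κ‖ ^ 2)| ≤
      8 * ε * (m * ∑ κ ∈ Finset.univ.erase κ0, ‖x κ‖ ^ 2)) : F ≤ 0 := by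
  have h1 := (abs_le.1 h).2
  have h2 : ∀ κ ∈ Finset.univ.erase κ0, (l κ + 8 * ε) * ‖x κ‖ ^ 2 ≤ 0 := by
    intro κ hκ
    rcases hl κ (Finset.ne_of_mem_erase hκ) with h3 | h3
    · simp [h3]
    · exact mul_nonpos_of_nonpos_of_nonneg (by linarith) (by positivity)
  have h3 : ∑ κ ∈ Finset.univ.erase κ0, (l κ + 8 * ε) * ‖x κ‖ ^ 2 =
      ∑ κ ∈ Finset.univ.erase κ0, l κ * ‖x κ‖ ^ 2 + 8 * ε * ∑ κ ∈ Finset.univ.erase κ0, ‖x κ‖ ^ 2 := by
    rw [Finset.mul_sum, ← Finset.sum_add_distrib]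
    exact Finset.sum_congr rfl fun κ _ => by ring
  have h4 : l0 * ‖x κ0‖ ^ 2 + ∑ κ ∈ Finset.univ.erase κ0, (l κ + 8 * ε) * ‖x κ‖ ^ 2 ≤ 0 :=
    add_nonpos (mul_nonpos_of_nonpos_of_nonneg hl0.le (by positivity)) (Finset.sum_nonpos h2)
  rw [h3] at h4
  have h5 := mul_nonpos_of_nonneg_of_nonpos hm.le h4
  nlinarith

theorem ends_cl {x : ℝ} (h0 : 0 ≤ x) (h1 : x ≤ 1) : cl x = x := by
  unfold cl
  rw [min_eq_right h1, max_eq_right h0]

/-- the family with prescribed modes -/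
noncomputable def ends_L (M : ℕ) (p : E) :
    (({κ : ZMod (2 * M + 1) // κ.val = 0 ∨ M < κ.val} → E) × ℂ) →ₗ[ℂ] (ZMod (2 * M + 1) → E) where
  toFun y := fun κ => if h : κ.val = 0 ∨ M < κ.val then y.1 ⟨κ, h⟩ else if κ = 1 then y.2 • p else 0
  map_add' y z := by
    funext κ
    simp only [Pi.add_apply, Prod.fst_add, Prod.snd_add]
    split_ifs
    · rfl
    · rw [add_smul]
    · rw [add_zero]
  map_smul' c y := by
    funext κ
    simp only [Pi.smul_apply, Prod.smul_fst, Prod.smul_snd, RingHom.id_apply]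
    split_ifs
    · rfl
    · rw [smul_eq_mul, mul_smul]
    · rw [smul_zero]

omit [NormedSpace ℝ E] [IsScalarTower ℝ ℂ E] [FiniteDimensional ℂ E] in
theorem ends_L_apply (M : ℕ) (p : E)
    (y : ({κ : ZMod (2 * M + 1) // κ.val = 0 ∨ M < κ.val} → E) × ℂ) (κ : ZMod (2 * M + 1)) :
    ends_L M p y κ =
      if h : κ.val = 0 ∨ M < κ.val then y.1 ⟨κ, h⟩ else if κ = 1 then y.2 • p else 0 := rfl

theorem Flow.low (h : Flow Φ a b p q) (hb : 0 < b) (hb' : b < 1) (hM : 4 ≤ M)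
    (hn : ∀ r, Near (sg Φ (2 * M + 1) r)) : ∃ t s : ℝ, 0 < t ∧ t ≤ 1 ∧ 0 < s ∧ s < t * b ∧
      ∃ k, k + 2 = 2 * ((M + 1) * finrank ℂ E) ∧
        Gen {v | FF (2 * M + 1) (sg Φ (2 * M + 1) (t, s)) v ≤ 0} k := by
  obtain ⟨ε, hε, hl⟩ := ends_eps (fun κ : ZMod (2 * M + 1) => lamb 1 κ)
    (fun κ => 1 ≤ κ.val ∧ κ.val ≤ M) fun κ hκ => lamb_pos hκ.1 hκ.2
  have h1 := h.sg_cl (2 * M + 1) 0 hε
  rw [ends_cl le_rfl zero_le_one, zero_div, neg_zero, ex_zero] at h1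
  have h2 : Tendsto (fun t : ℝ => (t, t * b / 2)) (𝓝[>] 0) (𝓝 ((0 : ℝ), (0 : ℝ))) := by
    have h3 : Continuous fun t : ℝ => (t, t * b / 2) := by fun_prop
    have h4 := h3.tendsto 0
    simp only [zero_mul, zero_div] at h4
    exact h4.mono_left nhdsWithin_le_nhds
  obtain ⟨t, hc, ht0, ht1⟩ := ((h2.eventually h1).and (Ioo_mem_nhdsGT (zero_lt_one' ℝ))).exists
  have htb : 0 < t * b := mul_pos ht0 hb
  have htb' : t * b < 1 := by nlinarith
  have hm : (0 : ℝ) < ((2 * M + 1 : ℕ) : ℝ) := by positivity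
  have hq : sg Φ (2 * M + 1) (t, t * b / 2) q = ex (t * b / 2 / ((2 * M + 1 : ℕ) : ℝ)) • q := by
    unfold sg
    rw [ends_cl ht0.le ht1.le, ends_cl (by linarith) (by linarith), h.rq, smul_smul, ← ex_add]
    congr 2
    ring
  obtain ⟨hz, hz'⟩ := lamb_zero hM (θ := t * b / 2) (by linarith) (by linarith)
  let P : (ZMod (2 * M + 1) → E) →ₗ[ℂ]
      (({κ : ZMod (2 * M + 1) // M < κ.val} → E) × (E ⧸ Submodule.span ℂ {q})) :=
    (LinearMap.prod (LinearMap.pi fun κ => LinearMap.proj κ.1)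
      ((Submodule.span ℂ {q}).mkQ.comp (LinearMap.proj 0))).comp ZMod.dft.symm.toLinearMap
  refine ⟨t, t * b / 2, ht0, ht1.le, by linarith, by linarith, _, ?_, gen_of_lin P ?_⟩
  · have e1 := Submodule.finrank_quotient_add_finrank (Submodule.span ℂ {q})
    rw [finrank_span_singleton h.q0] at e1
    rw [finrank_prod, finrank_pi_fintype, Finset.sum_const, Finset.card_univ, ends_card_low,
      smul_eq_mul, ← e1]
    ring
  · intro v hv hv0 hP
    obtain ⟨x, rfl⟩ := (ZMod.dft (N := 2 * M + 1) (E := E)).surjective v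
    have hx0 : x ≠ 0 := by
      rintro rfl
      exact hv0 (map_zero _)
    have e1 : ∀ κ : {κ : ZMod (2 * M + 1) // M < κ.val}, x κ.1 = 0 := by
      intro κ
      have := congrFun (congrArg Prod.fst hP) κ
      simpa [P] using this
    have e2 : x 0 ∈ Submodule.span ℂ {q} := by
      have := congrArg Prod.snd hP
      simpa [P] using this
    obtain ⟨c, hc'⟩ := Submodule.mem_span_singleton.1 e2
    have e3 := (hn (t, t * b / 2)).FF_split (u := 1) (by simp) (by simp) hε.le hc hq hz' 0 hc'.symm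
    refine absurd (ends_pos hm hz (fun κ hκ => ?_) hx0 e3) (not_lt.2 hv)
    by_cases e4 : M < κ.val
    · exact Or.inl (e1 ⟨κ, e4⟩)
    · refine Or.inr (hl κ ⟨?_, not_lt.1 e4⟩)
      exact Nat.one_le_iff_ne_zero.2 fun e5 => hκ ((ZMod.val_eq_zero κ).1 e5)

theorem Flow.high (h : Flow Φ a b p q) (ha : 0 < a) (ha' : a < 1) (hM : 4 ≤ M)
    (hn : ∀ r, Near (sg Φ (2 * M + 1) r)) : ∃ t s : ℝ, 0 < t ∧ t ≤ 1 ∧ 1 - t * a < s ∧ s < 1 ∧
      ∀ k, Gen {v | FF (2 * M + 1) (sg Φ (2 * M + 1) (t, s)) v ≤ 0} k →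
        2 * ((M + 1) * finrank ℂ E) + 2 ≤ k := by
  obtain ⟨ε, hε, hl⟩ := ends_eps
    (fun κ : ZMod (2 * M + 1) => -lamb (ex (-(1 / ((2 * M + 1 : ℕ) : ℝ)))) κ)
    (fun κ => κ.val = 0 ∨ M < κ.val) fun κ hκ => neg_pos.2 (lamb_neg hM hκ)
  have h1 := h.sg_cl (2 * M + 1) 1 hε
  rw [ends_cl zero_le_one le_rfl] at h1
  have h2 : Tendsto (fun t : ℝ => (t, 1 - t * a / 2)) (𝓝[>] 0) (𝓝 ((0 : ℝ), (1 : ℝ))) := by
    have h3 : Continuous fun t : ℝ => (t, 1 - t * a / 2) := by fun_prop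
    have h4 := h3.tendsto 0
    simp only [zero_mul, zero_div, sub_zero] at h4
    exact h4.mono_left nhdsWithin_le_nhds
  obtain ⟨t, hc, ht0, ht1⟩ := ((h2.eventually h1).and (Ioo_mem_nhdsGT (zero_lt_one' ℝ))).exists
  have hta : 0 < t * a := mul_pos ht0 ha
  have hta' : t * a < 1 := by nlinarith
  have hm : (0 : ℝ) < ((2 * M + 1 : ℕ) : ℝ) := by positivity
  have hp : sg Φ (2 * M + 1) (t, 1 - t * a / 2) p =
      ex (-((1 + t * a / 2) / ((2 * M + 1 : ℕ) : ℝ))) • p := by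
    unfold sg
    rw [ends_cl ht0.le ht1.le, ends_cl (by linarith) (by linarith), h.rp, smul_smul, ← ex_add]
    congr 2
    ring
  obtain ⟨hz, hz'⟩ := lamb_one hM (θ := 1 + t * a / 2) (by linarith) (by linarith)
  have hu : ‖ex (-(1 / ((2 * M + 1 : ℕ) : ℝ))) - 1‖ ≤ 1 := by
    have e1 := norm_ex_sub (-(1 / ((2 * M + 1 : ℕ) : ℝ))) 0
    rw [ex_zero, sub_zero, abs_neg, abs_of_pos (by positivity)] at e1
    refine e1.trans ?_
    have e2 : (4 : ℝ) ≤ M := by exact_mod_cast hM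
    rw [mul_one_div, div_le_one hm]
    push_cast
    linarith
  have hv1 : (1 : ZMod (2 * M + 1)).val = 1 := by
    rw [ZMod.val_one_eq_one_mod]
    exact Nat.mod_eq_of_lt (by omega)
  have hn1 : ¬ ((1 : ZMod (2 * M + 1)).val = 0 ∨ M < (1 : ZMod (2 * M + 1)).val) := by
    rw [hv1]
    omega
  refine ⟨t, 1 - t * a / 2, ht0, ht1.le, by linarith, by linarith, fun k hk => ?_⟩
  have e := hk.dim_le ((ZMod.dft (N := 2 * M + 1) (E := E)).toLinearMap.comp (ends_L M p)) ?_ ?_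
  · rw [finrank_prod, finrank_pi_fintype, Finset.sum_const, Finset.card_univ, ends_card_high,
      smul_eq_mul, finrank_self] at e
    omega
  · rw [LinearMap.coe_comp]
    refine (ZMod.dft (N := 2 * M + 1) (E := E)).injective.comp ?_
    rw [injective_iff_map_eq_zero]
    intro y hy
    refine Prod.ext (funext fun κ => ?_) ?_
    · have e1 := congrFun hy κ.1
      rw [ends_L_apply, dif_pos κ.2] at e1
      exact e1
    · have e1 := congrFun hy 1
      rw [ends_L_apply, dif_neg hn1, if_pos rfl] at e1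
      exact (smul_eq_zero.1 e1).resolve_right h.p0
  · intro y
    have e1 : ends_L M p y 1 = y.2 • p := by rw [ends_L_apply, dif_neg hn1, if_pos rfl]
    have e3 := (hn (t, 1 - t * a / 2)).FF_split (norm_ex _) hu hε.le hc hp hz' 1 e1
    refine ends_neg hm hz (fun κ hκ => ?_) e3
    by_cases e4 : κ.val = 0 ∨ M < κ.val
    · exact Or.inr (hl κ e4)
    · exact Or.inl (by rw [ends_L_apply, dif_neg e4, if_neg hκ])

end Vale.Agent.P209.C
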