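import Vale.Agent.P209N.C.Defs2

/-! P209N/C: short time maps of a conical flow are Lipschitz close to the identity.
`near`: sg = u • Φ τ, ‖u - 1‖ ≤ 7/m (`norm_ex_sub`), ‖u‖ = 1, `om_smul_smul`.
`sg_cl`: u Φ x - u0 x = u (Φ x - x) + (u - u0) x. -/

open Filter Topology Module

namespace Vale.Agent.P209.C

variable {E : Type} [NormedAddCommGroup E] [InnerProductSpace ℂ E] [NormedSpace ℝ E]
  [IsScalarTower ℝ ℂ E] [FiniteDimensional ℂ E] {Φ : ℝ → E → E} {a b : ℝ} {p q : E}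

omit [NormedSpace ℝ E] [IsScalarTower ℝ ℂ E] in
theorem proper : ProperSpace E := FiniteDimensional.proper ℂ E

theorem finR : FiniteDimensional ℝ E := Module.Finite.trans ℂ E

omit [NormedSpace ℝ E] [IsScalarTower ℝ ℂ E] [FiniteDimensional ℂ E]

theorem Flow.close (h : Flow Φ a b p q) {ε : ℝ} (hε : 0 < ε) :
    ∃ τ0 > 0, ∀ τ, 0 ≤ τ → |τ| ≤ τ0 → Cl (Φ τ) 1 ε := by
  obtain ⟨C, C0, hC⟩ := h.lip
  refine ⟨min 1 (ε / C), lt_min one_pos (div_pos hε C0), fun τ t0 hτ x y => ?_⟩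
  rw [abs_of_nonneg t0, le_min_iff, le_div_iff₀' C0] at hτ
  rw [one_smul, one_smul, sub_sub_sub_comm]
  exact (hC τ ⟨t0, hτ.1⟩ x y).trans (mul_le_mul_of_nonneg_right hτ.2 (norm_nonneg _))

theorem lip_rot {σ : E → E} {ε δ : ℝ} (h : Cl σ 1 ε) {u u0 : ℂ} (hu : ‖u‖ = 1)
    (h0 : ε + ‖u - u0‖ ≤ δ) : Cl (fun w => u • σ w) u0 δ := by
  intro x y
  have e : u • σ x - u0 • x - (u • σ y - u0 • y) =
      u • ((σ x - (1 : ℂ) • x) - (σ y - (1 : ℂ) • y)) + (u - u0) • (x - y) := by module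
  rw [e]
  refine (norm_add_le _ _).trans ?_
  rw [norm_smul, norm_smul, hu, one_mul]
  have := h x y
  nlinarith [norm_nonneg (x - y)]

theorem lip_cl_abs (x : ℝ) : |cl x| ≤ 1 := by
  unfold cl
  rw [abs_of_nonneg (le_max_left _ _)]
  exact max_le zero_le_one (min_le_left _ _)

theorem lip_cl_mem (x : ℝ) (m : ℕ) : cl x / m ∈ Set.Icc (0 : ℝ) 1 := by
  have h0 : 0 ≤ cl x := le_max_left _ _
  refine ⟨div_nonneg h0 (Nat.cast_nonneg _), ?_⟩
  rcases Nat.eq_zero_or_pos m with rfl | hm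
  · simp
  · exact (div_le_self h0 (Nat.one_le_cast.2 hm)).trans ((le_abs_self _).trans (lip_cl_abs x))

theorem lip_cl_cont : Continuous cl := by unfold cl; fun_prop

theorem Flow.near (h : Flow Φ a b p q) : ∃ M : ℕ, 4 ≤ M ∧ ∀ r, Near (sg Φ (2 * M + 1) r) := by
  obtain ⟨τ0, h0, hτ⟩ := h.close (ε := 1 / 4) (by norm_num)
  obtain ⟨N, hN⟩ := exists_nat_one_div_lt h0
  refine ⟨N + 14, by omega, fun r => ?_⟩
  set m := 2 * (N + 14) + 1 with hm
  have hm1 : (N : ℝ) + 1 ≤ m := by rw [hm]; push_cast; linarith [Nat.cast_nonneg (α := ℝ) N]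
  have hm2 : (28 : ℝ) ≤ m := by rw [hm]; push_cast; linarith [Nat.cast_nonneg (α := ℝ) N]
  have hb : ∀ x, |cl x / m| ≤ 1 / m := fun x => by
    rw [abs_div, Nat.abs_cast]
    exact div_le_div_of_nonneg_right (lip_cl_abs x) (Nat.cast_nonneg _)
  refine ⟨lip_rot (hτ _ (lip_cl_mem _ _).1 ((hb _).trans ?_)) (norm_ex _) ?_, fun c w => ?_, ?_⟩
  · exact (one_div_le_one_div_of_le (by positivity) hm1).trans hN.le
  · have h1 := norm_ex_sub (-(cl r.2 / m)) 0
    rw [ex_zero, sub_zero, abs_neg] at h1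
    have h2 := (hb r.2).trans (one_div_le_one_div_of_le (by norm_num) hm2)
    linarith
  · unfold sg
    rw [h.hom, smul_comm]
  · obtain ⟨C, hC⟩ := h.sym _ (lip_cl_mem r.1 m)
    refine ⟨C, fun x y => ?_⟩
    unfold sg
    rw [om_smul_smul, norm_ex, one_pow, one_mul]
    exact hC x y

theorem Flow.sg_cont (h : Flow Φ a b p q) (m : ℕ) :
    Continuous fun x : (ℝ × ℝ) × E => sg Φ m x.1 x.2 := by
  have c1 : Continuous fun x : (ℝ × ℝ) × E => ex (-(cl x.1.2 / m)) :=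
    continuous_ex.comp ((lip_cl_cont.comp continuous_fst.snd).div_const _).neg
  have c2 : Continuous fun x : (ℝ × ℝ) × E => (cl x.1.1 / m, x.2) :=
    ((lip_cl_cont.comp continuous_fst.fst).div_const _).prodMk continuous_snd
  exact c1.smul (h.cont.comp_continuous c2 fun x => ⟨lip_cl_mem _ _, Set.mem_univ _⟩)

theorem Flow.sg_cl (h : Flow Φ a b p q) (m : ℕ) (s0 : ℝ) {ε : ℝ} (hε : 0 < ε) :
    ∀ᶠ r in 𝓝 ((0 : ℝ), s0), Cl (sg Φ m r) (ex (-(cl s0 / m))) ε := by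
  obtain ⟨τ0, h0, hτ⟩ := h.close (half_pos hε)
  have c1 : Continuous fun r : ℝ × ℝ => |cl r.1 / m| :=
    ((lip_cl_cont.comp continuous_fst).div_const _).abs
  have c2 : Continuous fun r : ℝ × ℝ => ‖ex (-(cl r.2 / m)) - ex (-(cl s0 / m))‖ :=
    ((continuous_ex.comp ((lip_cl_cont.comp continuous_snd).div_const _).neg).sub
      continuous_const).norm
  have e1 := c1.continuousAt (x := (0, s0)) |>.eventually (Iic_mem_nhds (a := τ0) (by
    simpa [cl] using h0))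
  have e2 := c2.continuousAt (x := (0, s0)) |>.eventually (Iic_mem_nhds (a := ε / 2) (by
    simpa using hε))
  filter_upwards [e1, e2] with r h1 h2
  exact lip_rot (hτ _ (lip_cl_mem _ _).1 h1) (norm_ex _) (by linarith)

theorem Flow.sg_iter (h : Flow Φ a b p q) {m : ℕ} (hm : m ≠ 0) (r : ℝ × ℝ) (w : E) :
    (sg Φ m r)^[m] w = ex (-cl r.2) • Φ (cl r.1) w := by
  have key : ∀ k : ℕ, (sg Φ m r)^[k] w = ex (k * -(cl r.2 / m)) • Φ (k * (cl r.1 / m)) w := by
    intro k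
    induction k with
    | zero => simp [ex_zero, h.zero]
    | succ k ih =>
      rw [Function.iterate_succ_apply', ih, sg, h.hom, ← h.add, smul_smul, ← ex_add]
      push_cast
      congr 2 <;> ring
  have hm' : (m : ℝ) ≠ 0 := Nat.cast_ne_zero.2 hm
  rw [key, mul_neg, mul_div_cancel₀ _ hm', mul_div_cancel₀ _ hm']

end Vale.Agent.P209.C
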