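import Vale.Agent.P209N.C.Ends
import Vale.Agent.P209N.C.Big

/-! P209N/C: there is no conical flow with `a + b = 1`. -/

open Filter Topology Module

namespace Vale.Agent.P209.C

variable {E : Type} [NormedAddCommGroup E] [InnerProductSpace ℂ E] [NormedSpace ℝ E]
  [IsScalarTower ℝ ℂ E] [FiniteDimensional ℂ E] {Φ : ℝ → E → E} {a b : ℝ} {p q : E}

theorem cm_cl {x : ℝ} (h0 : 0 ≤ x) (h1 : x ≤ 1) : cl x = x := by
  rw [cl, min_eq_right h1, max_eq_right h0]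

theorem cm_crit (h : Flow Φ a b p q) {M : ℕ} (hn : ∀ r, Near (sg Φ (2 * M + 1) r)) {t s : ℝ}
    (t0 : 0 < t) (t1 : t ≤ 1) (s0 : 0 < s) (s1 : s < 1) {v : ZMod (2 * M + 1) → E} (hv : v ≠ 0)
    (h0 : FD (2 * M + 1) (sg Φ (2 * M + 1) (t, s)) v = 0) :
    (s = 1 - t * a ∧ ∃ c : ℂ, c ≠ 0 ∧ mid v 0 = c • p) ∨
      (s = t * b ∧ ∃ c : ℂ, c ≠ 0 ∧ mid v 0 = c • q) := by
  obtain ⟨z, z0, hz, hm⟩ := (hn (t, s)).FD_crit (odd_two_mul_add_one M) hv h0
  rw [h.sg_iter (by omega), cm_cl t0.le t1, cm_cl s0.le s1.le] at hz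
  have h1 : Φ t z = ex s • z := by
    conv_rhs => rw [← hz]
    rw [smul_smul, ← ex_add, add_neg_cancel, ex_zero, one_smul]
  have h2 : mid v 0 ≠ 0 := fun h3 => by
    have h4 := (hn (t, s)).left z
    have h5 := (hn (t, s)).zz_hom 0 0
    rw [← hm, h3] at h4
    rw [zero_smul, zero_smul, h4] at h5
    exact z0 h5
  have key : ∀ (y : E) (c u : ℂ), z = c • y → Φ (cl t / ((2 * M + 1 : ℕ) : ℝ)) y = u • y →
      ∃ c : ℂ, c ≠ 0 ∧ mid v 0 = c • y := by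
    intro y c u e1 e2
    have e3 : mid v 0 = (2⁻¹ * (c + ex (-(cl s / ((2 * M + 1 : ℕ) : ℝ))) * (c * u))) • y := by
      rw [hm, sg, e1, h.hom, e2]
      simp only [smul_smul, smul_add, mul_add, add_smul]
    exact ⟨_, fun h0 => h2 (by rw [e3, h0, zero_smul]), e3⟩
  rcases h.fix t s z t0 t1 s0 s1 z0 h1 with ⟨e, c, hc⟩ | ⟨e, c, hc⟩
  · exact Or.inl ⟨e, key p c _ hc (h.rp _)⟩
  · exact Or.inr ⟨e, key q c _ hc (h.rq _)⟩

omit [NormedSpace ℝ E] [IsScalarTower ℝ ℂ E] [FiniteDimensional ℂ E] in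
theorem cm_vec (hp : p ≠ 0) (hq : q ≠ 0) : ∃ r : E, inner ℂ r p ≠ 0 ∧ inner ℂ r q ≠ 0 := by
  by_cases h : inner ℂ p q = 0
  · refine ⟨p + q, ?_, ?_⟩
    · rw [inner_add_left, inner_eq_zero_symm.1 h, add_zero]
      exact inner_self_ne_zero.2 hp
    · rw [inner_add_left, h, zero_add]
      exact inner_self_ne_zero.2 hq
  · exact ⟨p, inner_self_ne_zero.2 hp, h⟩

/-- a linear functional of the first midpoint -/
noncomputable def cmG (r : E) (m : ℕ) : (ZMod m → E) →ₗ[ℝ] ℂ where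
  toFun v := inner ℂ r (mid v 0)
  map_add' v w := by
    rw [← inner_add_right]
    congr 1
    simp only [mid, Pi.add_apply]
    module
  map_smul' c v := by
    rw [RingHom.id_apply, Complex.real_smul, ← inner_smul_right]
    congr 1
    simp only [mid, Pi.smul_apply, real_smul_eq]
    module

theorem noFlow (ha : 0 < a) (hb : 0 < b) (hab : a + b = 1) : ¬Flow Φ a b p q := by
  intro h
  have := finR (E := E)
  obtain ⟨M, hM, hn⟩ := h.near
  have hc := FF_cont (m := 2 * M + 1) (h.sg_cont (2 * M + 1)) hn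
  have hom := fun r => (hn r).FF_hom (m := 2 * M + 1)
  obtain ⟨t1, s1, a1, a2, a3, a4, k, hk, hG⟩ := h.low hb (by linarith) hM hn
  obtain ⟨t2, s2, b1, b2, b3, b4, hG'⟩ := h.high ha (by linarith) hM hn
  obtain ⟨r, hrp, hrq⟩ := cm_vec h.p0 h.q0
  have hd := deform hc hom (hn (1, b)).FF_deriv (hn (1, b)).FD_cont (cmG r (2 * M + 1))
    fun v hv h0 => by
      show inner ℂ r (mid v 0) ≠ 0
      rcases cm_crit h hn one_pos le_rfl hb (by linarith) hv h0 with ⟨-, c, c0, e⟩ | ⟨-, c, c0, e⟩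
      · rw [e, inner_smul_right]
        exact mul_ne_zero c0 hrp
      · rw [e, inner_smul_right]
        exact mul_ne_zero c0 hrq
  have ht : Tendsto (fun η : ℝ => (((1 : ℝ), b + η), ((1 : ℝ), b - η))) (𝓝[>] 0)
      (𝓝 (((1 : ℝ), b), ((1 : ℝ), b))) :=
    tendsto_nhdsWithin_of_tendsto_nhds (Continuous.tendsto' (by fun_prop) _ _ (by simp))
  obtain ⟨η, h1, η0, η1⟩ := ((ht.eventually hd).and
    (Ioo_mem_nhdsGT (lt_min ha hb))).exists
  have ηa := η1.trans_le (min_le_left _ _)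
  have ηb := η1.trans_le (min_le_right _ _)
  have cA : Convex ℝ {r : ℝ × ℝ | 0 < r.1 ∧ r.1 ≤ 1 ∧ 0 < r.2 ∧ r.2 - b * r.1 < 0} :=
    (convex_halfSpace_gt (LinearMap.fst ℝ ℝ ℝ).isLinear 0).inter
      ((convex_halfSpace_le (LinearMap.fst ℝ ℝ ℝ).isLinear 1).inter
        ((convex_halfSpace_gt (LinearMap.snd ℝ ℝ ℝ).isLinear 0).inter
          (convex_halfSpace_lt (LinearMap.snd ℝ ℝ ℝ - b • LinearMap.fst ℝ ℝ ℝ).isLinear 0)))
  have cC : Convex ℝ {r : ℝ × ℝ | 0 < r.1 ∧ r.1 ≤ 1 ∧ r.2 < 1 ∧ 1 < r.2 + a * r.1} :=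
    (convex_halfSpace_gt (LinearMap.fst ℝ ℝ ℝ).isLinear 0).inter
      ((convex_halfSpace_le (LinearMap.fst ℝ ℝ ℝ).isLinear 1).inter
        ((convex_halfSpace_lt (LinearMap.snd ℝ ℝ ℝ).isLinear 1).inter
          (convex_halfSpace_gt (LinearMap.snd ℝ ℝ ℝ + a • LinearMap.fst ℝ ℝ ℝ).isLinear 1)))
  have g1 := gen_chain hc hom cA.isPreconnected (fun r hr => ⟨_, (hn r).FF_deriv, (hn r).FD_cont,
    fun v hv h0 => by
      obtain ⟨c1, c2, c3, c4⟩ := hr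
      have c5 : r.1 * a + r.1 * b ≤ 1 := by rw [← mul_add, hab, mul_one]; exact c2
      have c6 := mul_pos c1 ha
      rcases cm_crit h hn c1 c2 c3 (by linarith) hv h0 with ⟨e, -⟩ | ⟨e, -⟩ <;> linarith⟩)
    (p := (t1, s1)) (p' := (1, b - η)) ⟨a1, a2, a3, by dsimp only; linarith⟩
    ⟨one_pos, le_rfl, by dsimp only; linarith, by dsimp only; linarith⟩ hG
  have g2 := gen_chain hc hom cC.isPreconnected (fun r hr => ⟨_, (hn r).FF_deriv, (hn r).FD_cont,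
    fun v hv h0 => by
      obtain ⟨c1, c2, c3, c4⟩ := hr
      have c5 : r.1 * a + r.1 * b ≤ 1 := by rw [← mul_add, hab, mul_one]; exact c2
      have c6 := mul_pos c1 hb
      rcases cm_crit h hn c1 c2 (by linarith) c3 hv h0 with ⟨e, -⟩ | ⟨e, -⟩ <;> linarith⟩)
    (p := (1, b + η)) (p' := (t2, s2))
    ⟨one_pos, le_rfl, by dsimp only; linarith, by dsimp only; linarith⟩
    ⟨b1, b2, b4, by dsimp only; linarith⟩ (h1 k g1)
  have h3 := hG' _ g2
  rw [Complex.finrank_real_complex] at h3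
  omega

end Vale.Agent.P209.C
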