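import Vale.Agent.P209N.C.Near

/-! P209N/C: Fourier modes.
PLAN. `parseval`: `ZMod.dft_apply`, `sum_inner`, `inner_sum`, conj of the character
(`AddChar.map_neg_eq_conj` / `AddChar.inv_apply_eq_conj`), `AddChar.sum_mulShift` with
`ZMod.isPrimitive_stdAddChar`.  `FF_split`: x = l + x', l = Pi.single κ0 (x κ0), x' κ0 = 0;
mid (dft x) j = c j • w + δ j with ‖c j‖ = 1, w = (1 + ch κ0)/2 • x κ0, δ = dft ((1 + ch κ)/2 • x' κ);
`gf_second` for each j, `gf_hom`, `yy_hom`; c j • yy w = dft (Pi.single κ0 (yy w)) j is orthogonal to δ.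
Signs: ch κ = ex (-(κ.val / m)) (`ZMod.stdAddChar_coe`), `Real.sin_pos_of_pos_of_lt_pi`. -/

open Filter Topology Module

namespace Vale.Agent.P209.C

variable {E : Type} [NormedAddCommGroup E] [InnerProductSpace ℂ E] {m : ℕ} [NeZero m]

theorem ch_eq (κ : ZMod m) : ch κ = ex (-((κ.val : ℝ) / m)) := by
  unfold ch ex
  have h : (-κ : ZMod m) = ((-(κ.val : ℤ) : ℤ) : ZMod m) := by
    push_cast
    rw [ZMod.natCast_zmod_val]
  rw [h, ZMod.stdAddChar_coe]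
  congr 1
  push_cast
  ring

theorem dft_succ (x : ZMod m → E) (j : ZMod m) :
    ZMod.dft x (j + 1) = ZMod.dft (fun κ => ch κ • x κ) j := by
  rw [ZMod.dft_apply, ZMod.dft_apply]
  refine Finset.sum_congr rfl fun κ _ => ?_
  rw [smul_smul, ch, ← AddChar.map_add_eq_mul]
  congr 2
  ring

theorem parseval (x y : ZMod m → E) :
    ∑ j, inner ℂ (ZMod.dft x j) (ZMod.dft y j) = m * ∑ κ, inner ℂ (x κ) (y κ) := by
  classical
  have h1 : ∀ j, inner ℂ (ZMod.dft x j) (ZMod.dft y j) =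
      ∑ κ, ∑ κ', ZMod.stdAddChar (j * (κ - κ')) * inner ℂ (x κ) (y κ') := by
    intro j
    rw [ZMod.dft_apply, ZMod.dft_apply, sum_inner]
    refine Finset.sum_congr rfl fun κ _ => ?_
    rw [inner_sum]
    refine Finset.sum_congr rfl fun κ' _ => ?_
    rw [inner_smul_left, inner_smul_right, ← mul_assoc, ← AddChar.map_neg_eq_conj,
      ← AddChar.map_add_eq_mul]
    congr 2
    ring
  simp_rw [h1]
  rw [Finset.sum_comm, Finset.mul_sum]
  refine Finset.sum_congr rfl fun κ _ => ?_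
  rw [Finset.sum_comm]
  simp_rw [← Finset.sum_mul, AddChar.sum_mulShift _ (ZMod.isPrimitive_stdAddChar m), sub_eq_zero]
  rw [Finset.sum_eq_single κ]
  · simp [ZMod.card]
  · intro b _ hb
    rw [if_neg (Ne.symm hb)]
    simp
  · intro hk
    exact absurd (Finset.mem_univ κ) hk

theorem mode_norm_sq (s : ℝ) : ‖1 + ex s‖ ^ 2 = 4 * Real.cos (Real.pi * s) ^ 2 := by
  rw [Complex.sq_norm, Complex.normSq_apply, Complex.add_re, Complex.add_im, ex_re, ex_im,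
    Complex.one_re, Complex.one_im, mul_assoc 2, Real.cos_two_mul, Real.sin_two_mul]
  have := Real.sin_sq_add_cos_sq (Real.pi * s)
  have h2 : Real.sin (Real.pi * s) ^ 2 = 1 - Real.cos (Real.pi * s) ^ 2 := by linarith
  ring_nf
  rw [h2]
  ring

theorem mode_ne {s : ℝ} (h : Real.cos (Real.pi * s) ≠ 0) : 1 + ex s ≠ 0 := by
  intro h0
  have := mode_norm_sq s
  rw [h0, norm_zero] at this
  have h2 : Real.cos (Real.pi * s) ^ 2 = 0 := by linarith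
  exact h (pow_eq_zero_iff two_ne_zero |>.1 h2)

theorem mode_lamb (a : ℝ) (h : Real.cos (Real.pi * a) ≠ 0) (κ : ZMod m) :
    lamb (ex a) κ = 2 * Real.cos (Real.pi * ((κ.val : ℝ) / m)) *
      Real.sin (Real.pi * (a + (κ.val : ℝ) / m)) / Real.cos (Real.pi * a) := by
  unfold lamb kq
  rw [ch_eq, norm_mul, mul_pow, mode_norm_sq, mode_norm_sq, ex_im, ex_im, mul_assoc 2,
    mul_assoc 2, Real.sin_two_mul, Real.sin_two_mul, mul_neg, Real.cos_neg, Real.sin_neg,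
    mul_add, Real.sin_add, norm_inv, Complex.norm_two]
  field_simp
  ring

theorem mode_cos_pos {s : ℝ} (h0 : -(1 / 2) < s) (h1 : s < 1 / 2) :
    0 < Real.cos (Real.pi * s) :=
  Real.cos_pos_of_mem_Ioo ⟨by nlinarith [Real.pi_pos], by nlinarith [Real.pi_pos]⟩

theorem mode_sin_pos {s : ℝ} (h0 : 0 < s) (h1 : s < 1) : 0 < Real.sin (Real.pi * s) :=
  Real.sin_pos_of_pos_of_lt_pi (mul_pos Real.pi_pos h0) (by nlinarith [Real.pi_pos])

theorem mode_dft_single (κ0 : ZMod m) (w : E) (j : ZMod m) :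
    ZMod.dft (Pi.single κ0 w : ZMod m → E) j = ZMod.stdAddChar (-(κ0 * j)) • w := by
  rw [ZMod.dft_apply, Finset.sum_eq_single κ0]
  · simp
  · intro b _ hb
    simp [hb]
  · intro hk
    exact absurd (Finset.mem_univ κ0) hk

theorem mode_mid (x : ZMod m → E) (j : ZMod m) :
    mid (ZMod.dft x) j = ZMod.dft (fun κ => ((2⁻¹ : ℂ) * (1 + ch κ)) • x κ) j := by
  unfold mid
  rw [dft_succ, ZMod.dft_apply, ZMod.dft_apply, ZMod.dft_apply, ← Finset.sum_add_distrib,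
    Finset.smul_sum]
  refine Finset.sum_congr rfl fun κ _ => ?_
  rw [smul_smul, smul_smul, ← add_smul, smul_smul]
  congr 1
  ring

theorem mode_parseval_norm (x : ZMod m → E) :
    ∑ j, ‖ZMod.dft x j‖ ^ 2 = m * ∑ κ, ‖x κ‖ ^ 2 := by
  have h := parseval x x
  simp_rw [inner_self_eq_norm_sq_to_K] at h
  apply Complex.ofReal_injective
  push_cast
  exact h

theorem mode_om_sum (x : ZMod m → E) :
    ∑ j, om (ZMod.dft x j) (ZMod.dft x (j + 1)) = m * ∑ κ, (ch κ).im * ‖x κ‖ ^ 2 := by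
  simp_rw [dft_succ, ← om_self_smul]
  unfold om
  rw [← Complex.im_sum, parseval, ← Complex.im_sum]
  simp

theorem mode_norm_a (κ : ZMod m) : ‖(2⁻¹ : ℂ) * (1 + ch κ)‖ ≤ 1 := by
  have h := norm_add_le (1 : ℂ) (ch κ)
  rw [norm_one, ch_eq, norm_ex] at h
  rw [norm_mul, norm_inv, Complex.norm_two, ch_eq]
  linarith

theorem lamb_pos {M : ℕ} {κ : ZMod (2 * M + 1)} (h1 : 1 ≤ κ.val) (h2 : κ.val ≤ M) :
    0 < lamb 1 κ := by
  have hm : (0 : ℝ) < ((2 * M + 1 : ℕ) : ℝ) := by positivity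
  have hk1 : (1 : ℝ) ≤ κ.val := by exact_mod_cast h1
  have hk2 : (κ.val : ℝ) ≤ M := by exact_mod_cast h2
  have hr : (κ.val : ℝ) / ((2 * M + 1 : ℕ) : ℝ) < 1 / 2 := by
    rw [div_lt_iff₀ hm]; push_cast; linarith
  have hr0 : 0 < (κ.val : ℝ) / ((2 * M + 1 : ℕ) : ℝ) := by positivity
  have hc : 0 < Real.cos (Real.pi * 0) := by simp
  rw [← ex_zero, mode_lamb 0 hc.ne']
  have h3 := mode_cos_pos (s := (κ.val : ℝ) / ((2 * M + 1 : ℕ) : ℝ)) (by linarith) hr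
  have h4 := mode_sin_pos (s := 0 + (κ.val : ℝ) / ((2 * M + 1 : ℕ) : ℝ)) (by linarith)
    (by linarith)
  positivity

theorem lamb_neg {M : ℕ} (hM : 4 ≤ M) {κ : ZMod (2 * M + 1)} (h : κ.val = 0 ∨ M < κ.val) :
    lamb (ex (-(1 / ((2 * M + 1 : ℕ) : ℝ)))) κ < 0 := by
  have hm : (0 : ℝ) < ((2 * M + 1 : ℕ) : ℝ) := by positivity
  have hM' : (4 : ℝ) ≤ M := by exact_mod_cast hM
  have hq : 1 / ((2 * M + 1 : ℕ) : ℝ) < 1 / 2 := by
    rw [div_lt_iff₀ hm]; push_cast; linarith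
  have hq0 : 0 < 1 / ((2 * M + 1 : ℕ) : ℝ) := by positivity
  have hc := mode_cos_pos (s := -(1 / ((2 * M + 1 : ℕ) : ℝ))) (by linarith) (by linarith)
  rw [mode_lamb _ hc.ne']
  refine div_neg_of_neg_of_pos ?_ hc
  rcases h with h | h
  · rw [h]
    have h4 := mode_sin_pos (s := 1 / ((2 * M + 1 : ℕ) : ℝ)) hq0 (by linarith)
    rw [Nat.cast_zero, zero_div, mul_zero, Real.cos_zero, add_zero, mul_neg, Real.sin_neg]
    linarith
  · have hk1 : (M : ℝ) + 1 ≤ κ.val := by exact_mod_cast h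
    have hk2 : (κ.val : ℝ) < ((2 * M + 1 : ℕ) : ℝ) := by exact_mod_cast ZMod.val_lt κ
    have hr : 1 / 2 < (κ.val : ℝ) / ((2 * M + 1 : ℕ) : ℝ) := by
      rw [lt_div_iff₀ hm]; push_cast; linarith
    have hr1 : (κ.val : ℝ) / ((2 * M + 1 : ℕ) : ℝ) < 1 := by
      rw [div_lt_one hm]; exact hk2
    have h3 : Real.cos (Real.pi * ((κ.val : ℝ) / ((2 * M + 1 : ℕ) : ℝ))) < 0 := by
      have := mode_cos_pos (s := 1 - (κ.val : ℝ) / ((2 * M + 1 : ℕ) : ℝ)) (by linarith)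
        (by linarith)
      rw [mul_sub, mul_one, Real.cos_pi_sub] at this
      linarith
    have h4 := mode_sin_pos
      (s := -(1 / ((2 * M + 1 : ℕ) : ℝ)) + (κ.val : ℝ) / ((2 * M + 1 : ℕ) : ℝ)) (by linarith)
      (by linarith)
    nlinarith

theorem lamb_zero {M : ℕ} (hM : 4 ≤ M) {θ : ℝ} (h0 : 0 < θ) (h1 : θ ≤ 1) :
    0 < lamb (ex (θ / ((2 * M + 1 : ℕ) : ℝ))) (0 : ZMod (2 * M + 1)) ∧
      1 + ex (θ / ((2 * M + 1 : ℕ) : ℝ)) ≠ 0 := by
  have hm : (0 : ℝ) < ((2 * M + 1 : ℕ) : ℝ) := by positivity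
  have hM' : (4 : ℝ) ≤ M := by exact_mod_cast hM
  have hq : θ / ((2 * M + 1 : ℕ) : ℝ) < 1 / 2 := by
    rw [div_lt_iff₀ hm]; push_cast; linarith
  have hq0 : 0 < θ / ((2 * M + 1 : ℕ) : ℝ) := by positivity
  have hc := mode_cos_pos (s := θ / ((2 * M + 1 : ℕ) : ℝ)) (by linarith) hq
  refine ⟨?_, mode_ne hc.ne'⟩
  rw [mode_lamb _ hc.ne', ZMod.val_zero, Nat.cast_zero, zero_div, mul_zero, Real.cos_zero,
    add_zero]
  have h4 := mode_sin_pos (s := θ / ((2 * M + 1 : ℕ) : ℝ)) hq0 (by linarith)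
  positivity

theorem lamb_one {M : ℕ} (hM : 4 ≤ M) {θ : ℝ} (h0 : 1 < θ) (h1 : θ ≤ 2) :
    lamb (ex (-(θ / ((2 * M + 1 : ℕ) : ℝ)))) (1 : ZMod (2 * M + 1)) < 0 ∧
      1 + ex (-(θ / ((2 * M + 1 : ℕ) : ℝ))) ≠ 0 := by
  have hm : (0 : ℝ) < ((2 * M + 1 : ℕ) : ℝ) := by positivity
  have hM' : (4 : ℝ) ≤ M := by exact_mod_cast hM
  have hq : θ / ((2 * M + 1 : ℕ) : ℝ) < 1 / 2 := by
    rw [div_lt_iff₀ hm]; push_cast; linarith
  have hq1 : 1 / ((2 * M + 1 : ℕ) : ℝ) < θ / ((2 * M + 1 : ℕ) : ℝ) :=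
    div_lt_div_of_pos_right h0 hm
  have hq0 : 0 < 1 / ((2 * M + 1 : ℕ) : ℝ) := by positivity
  have hc := mode_cos_pos (s := -(θ / ((2 * M + 1 : ℕ) : ℝ))) (by linarith) (by linarith)
  refine ⟨?_, mode_ne hc.ne'⟩
  have : Fact (1 < 2 * M + 1) := ⟨by omega⟩
  rw [mode_lamb _ hc.ne', ZMod.val_one, Nat.cast_one]
  refine div_neg_of_neg_of_pos ?_ hc
  have h3 := mode_cos_pos (s := 1 / ((2 * M + 1 : ℕ) : ℝ)) (by linarith) (by linarith)
  have h4 := mode_sin_pos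
    (s := -(-(θ / ((2 * M + 1 : ℕ) : ℝ)) + 1 / ((2 * M + 1 : ℕ) : ℝ))) (by linarith)
    (by linarith)
  rw [mul_neg, Real.sin_neg] at h4
  nlinarith

variable [NormedSpace ℝ E] [IsScalarTower ℝ ℂ E] [FiniteDimensional ℂ E] {σ : E → E}

theorem Near.FF_split (h : Near σ) {u u' : ℂ} (hu : ‖u‖ = 1) (hu' : ‖u - 1‖ ≤ 1) {ε : ℝ}
    (hε : 0 ≤ ε) (hc : Cl σ u ε) {y : E} (hy : σ y = u' • y) (h1 : 1 + u' ≠ 0) (κ0 : ZMod m)
    {x : ZMod m → E} {c : ℂ} (hx : x κ0 = c • y) :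
    |FF m σ (ZMod.dft x) - m * (lamb u' κ0 * ‖x κ0‖ ^ 2 +
        ∑ κ ∈ Finset.univ.erase κ0, lamb u κ * ‖x κ‖ ^ 2)| ≤
      8 * ε * (m * ∑ κ ∈ Finset.univ.erase κ0, ‖x κ‖ ^ 2) := by
  classical
  set a : ZMod m → ℂ := fun κ => (2⁻¹ : ℂ) * (1 + ch κ) with ha
  set X : ZMod m → E := fun κ => if κ = κ0 then 0 else a κ • x κ with hX
  set w : E := a κ0 • x κ0 with hw
  set e : ZMod m → ℂ := fun j => ZMod.stdAddChar (-(κ0 * j)) with he
  have he1 : ∀ j, ‖e j‖ = 1 := fun j => AddChar.norm_apply _ _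
  have hmid : ∀ j, mid (ZMod.dft x) j = e j • w + ZMod.dft X j := by
    intro j
    rw [mode_mid, ← mode_dft_single κ0 w j, ← Pi.add_apply, ← map_add]
    refine congrArg (fun z : ZMod m → E => ZMod.dft z j) (funext fun κ => ?_)
    by_cases hκ : κ = κ0
    · subst hκ; simp [hX, hw, ha]
    · simp [hX, hκ, ha]
  have hg0 : ∀ j, gf σ (e j • w) = kq u' * (‖a κ0‖ ^ 2 * ‖x κ0‖ ^ 2) := by
    intro j
    have h2 : e j • w = (e j * a κ0 * c) • y := by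
      rw [hw, hx, smul_smul, smul_smul]
    rw [h2, h.gf_line hy h1, ← h2, norm_smul, he1, one_mul, hw, norm_smul, mul_pow]
  have hcross : ∑ j, om (yy σ (e j • w)) (ZMod.dft X j) = 0 := by
    have h2 : ∀ j, om (yy σ (e j • w)) (ZMod.dft X j) =
        (inner ℂ (ZMod.dft (Pi.single κ0 (yy σ w) : ZMod m → E) j) (ZMod.dft X j)).im := by
      intro j
      rw [h.yy_hom, mode_dft_single]
      rfl
    simp_rw [h2]
    rw [← Complex.im_sum, parseval, Finset.sum_eq_zero]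
    · simp
    · intro κ _
      by_cases hκ : κ = κ0
      · subst hκ; simp [hX]
      · simp [hκ]
  have hX2 : ∑ κ, ‖X κ‖ ^ 2 = ∑ κ ∈ Finset.univ.erase κ0, ‖a κ‖ ^ 2 * ‖x κ‖ ^ 2 := by
    rw [← Finset.add_sum_erase _ _ (Finset.mem_univ κ0)]
    have h0 : X κ0 = 0 := by simp [hX]
    rw [h0, norm_zero, zero_pow two_ne_zero, zero_add]
    refine Finset.sum_congr rfl fun κ hκ => ?_
    have hκ' := (Finset.mem_erase.1 hκ).1
    simp only [hX, if_neg hκ', norm_smul, mul_pow]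
  have hδ : ∑ j, ‖ZMod.dft X j‖ ^ 2 =
      m * ∑ κ ∈ Finset.univ.erase κ0, ‖a κ‖ ^ 2 * ‖x κ‖ ^ 2 := by
    rw [mode_parseval_norm, hX2]
  have hom := mode_om_sum x
  have key : FF m σ (ZMod.dft x) - m * (lamb u' κ0 * ‖x κ0‖ ^ 2 +
        ∑ κ ∈ Finset.univ.erase κ0, lamb u κ * ‖x κ‖ ^ 2) =
      ∑ j, (gf σ (e j • w + ZMod.dft X j) - gf σ (e j • w) -
        2 * om (yy σ (e j • w)) (ZMod.dft X j) - kq u * ‖ZMod.dft X j‖ ^ 2) := by
    unfold FF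
    simp_rw [hmid, Finset.sum_sub_distrib, ← Finset.mul_sum, hcross, hδ, hom, hg0]
    rw [Finset.sum_const, Finset.card_univ, ZMod.card, nsmul_eq_mul,
      ← Finset.add_sum_erase _ (fun κ => (ch κ).im * ‖x κ‖ ^ 2) (Finset.mem_univ κ0)]
    have h3 : ∑ κ ∈ Finset.univ.erase κ0, lamb u κ * ‖x κ‖ ^ 2 =
        kq u * (∑ κ ∈ Finset.univ.erase κ0, ‖a κ‖ ^ 2 * ‖x κ‖ ^ 2) -
          ∑ κ ∈ Finset.univ.erase κ0, (ch κ).im * ‖x κ‖ ^ 2 := by
      rw [Finset.mul_sum, ← Finset.sum_sub_distrib]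
      refine Finset.sum_congr rfl fun κ _ => ?_
      simp only [lamb, ha]
      ring
    rw [h3]
    simp only [lamb, ha]
    ring
  rw [key]
  refine (Finset.abs_sum_le_sum_abs _ _).trans ?_
  refine (Finset.sum_le_sum fun j _ => h.gf_second hu hu' hε hc _ _).trans ?_
  rw [← Finset.mul_sum, hδ]
  refine mul_le_mul_of_nonneg_left (mul_le_mul_of_nonneg_left ?_ (Nat.cast_nonneg _))
    (by positivity)
  refine Finset.sum_le_sum fun κ _ => ?_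
  have h4 : ‖a κ‖ ≤ 1 := mode_norm_a κ
  have h5 : ‖a κ‖ ^ 2 ≤ 1 := pow_le_one₀ (norm_nonneg _) h4
  nlinarith [sq_nonneg ‖x κ‖]

end Vale.Agent.P209.C
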