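import Vale.Agent.P209N.C.Lip

/-! P209N/C: the generating function of one map.
PLAN. H z = (z + σ z)/2 = z + (σ z - z)/2, so ‖z - z'‖ ≤ (4/3) ‖H z - H z'‖ (injective) and H z = w is
the fixed point equation of the contraction z ↦ w - (σ z - z)/2 (`ContractingWith.fixedPoint`).
`gf_deriv`: γ z = om z (σ z) satisfies, by `sym`,
γ z' - γ z - 2 om (z - σ z) (H z' - H z) = O (‖z' - z‖²), compose with zz
(`IsLittleO.comp_tendsto`, `IsLittleO.trans_isBigO`).
`gf_second`: κ = -i kq u = 2 (1 - u)/(1 + u).  With Δσ = u Δz + e: Δw = ((1+u) Δz + e)/2,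
Δyy - κ Δw = -(1 + κ/2) e, ‖κ‖ ≤ 2, ‖e‖ ≤ ε ‖Δz‖ ≤ 2 ε ‖Δw‖.  Mean value inequality for
δ ↦ gf (w + δ) - 2 om (yy w) δ - kq u ‖δ‖² on the ball of radius ‖δ‖ (kq u ‖δ‖² = om (κ δ) δ). -/

open Filter Topology Module

namespace Vale.Agent.P209.C

variable {E : Type} [NormedAddCommGroup E] [InnerProductSpace ℂ E] [NormedSpace ℝ E]
  [IsScalarTower ℝ ℂ E] [FiniteDimensional ℂ E] {σ : E → E}

omit [IsScalarTower ℝ ℂ E] [FiniteDimensional ℂ E] in
theorem near_cl (h : Near σ) (x y : E) :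
    ‖(2⁻¹ : ℂ) • ((σ x - x) - (σ y - y))‖ ≤ 1 / 4 * ‖x - y‖ := by
  have h1 := h.cl x y
  rw [one_smul, one_smul] at h1
  rw [norm_smul, norm_inv, Complex.norm_ofNat]
  linarith

omit [IsScalarTower ℝ ℂ E] [FiniteDimensional ℂ E] in
theorem near_lip (h : Near σ) (x y : E) :
    ‖x - y‖ ≤ 2 * ‖(2⁻¹ : ℂ) • (x + σ x) - (2⁻¹ : ℂ) • (y + σ y)‖ := by
  have e : x - y = ((2⁻¹ : ℂ) • (x + σ x) - (2⁻¹ : ℂ) • (y + σ y)) -
      (2⁻¹ : ℂ) • ((σ x - x) - (σ y - y)) := by module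
  have h1 := norm_sub_le ((2⁻¹ : ℂ) • (x + σ x) - (2⁻¹ : ℂ) • (y + σ y))
    ((2⁻¹ : ℂ) • ((σ x - x) - (σ y - y)))
  rw [← e] at h1
  have h2 := near_cl h x y
  have h3 := norm_nonneg ((2⁻¹ : ℂ) • (x + σ x) - (2⁻¹ : ℂ) • (y + σ y))
  linarith

omit [IsScalarTower ℝ ℂ E] [FiniteDimensional ℂ E] in
theorem near_zero (h : Near σ) : σ 0 = 0 := by
  have h1 := h.hom 0 0
  rwa [zero_smul, zero_smul] at h1

omit [IsScalarTower ℝ ℂ E] in
theorem near_surj (h : Near σ) : Function.Surjective fun z => (2⁻¹ : ℂ) • (z + σ z) := by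
  intro w
  have := FiniteDimensional.complete ℂ E
  have hc : ContractingWith (1 / 4) fun z => w - (2⁻¹ : ℂ) • (σ z - z) := by
    refine ⟨by norm_num, LipschitzWith.of_dist_le_mul fun x y => ?_⟩
    rw [dist_sub_left, dist_eq_norm, dist_eq_norm, ← smul_sub]
    refine (near_cl h x y).trans_eq ?_
    norm_num
  refine ⟨hc.fixedPoint, ?_⟩
  have h1 : w - (2⁻¹ : ℂ) • (σ hc.fixedPoint - hc.fixedPoint) = hc.fixedPoint :=
    hc.fixedPoint_isFixedPt
  rw [sub_eq_iff_eq_add] at h1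
  refine Eq.trans ?_ h1.symm
  module

theorem Near.right (h : Near σ) (w : E) : (2⁻¹ : ℂ) • (zz σ w + σ (zz σ w)) = w :=
  Function.rightInverse_invFun (near_surj h) w

theorem Near.left (h : Near σ) (z : E) : zz σ ((2⁻¹ : ℂ) • (z + σ z)) = z := by
  refine Function.leftInverse_invFun (f := fun z => (2⁻¹ : ℂ) • (z + σ z)) (fun x y e => ?_) z
  have h1 := near_lip h x y
  rw [sub_eq_zero.2 e, norm_zero, mul_zero] at h1
  exact sub_eq_zero.1 (norm_le_zero_iff.1 h1)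

theorem Near.zz_lip (h : Near σ) (w w' : E) : ‖zz σ w - zz σ w'‖ ≤ 2 * ‖w - w'‖ := by
  have h1 := near_lip h (zz σ w) (zz σ w')
  rwa [h.right, h.right] at h1

theorem Near.zz_hom (h : Near σ) (c : ℂ) (w : E) : zz σ (c • w) = c • zz σ w := by
  have h1 := h.left (c • zz σ w)
  rwa [h.hom, ← smul_add, smul_comm, h.right] at h1

theorem Near.yy_hom (h : Near σ) (c : ℂ) (w : E) : yy σ (c • w) = c • yy σ w := by
  rw [yy, yy, h.zz_hom, h.hom, smul_sub]

theorem Near.gf_hom (h : Near σ) (c : ℂ) (w : E) : gf σ (c • w) = ‖c‖ ^ 2 * gf σ w := by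
  rw [gf, gf, h.zz_hom, h.hom, om_smul_smul]

omit [FiniteDimensional ℂ E] in
theorem near_deriv (h : Near σ) (z : E) :
    HasFDerivAt (fun x => om x (σ x) - om (z - σ z) (x + σ x)) (0 : E →L[ℝ] ℝ) z := by
  obtain ⟨C, hC⟩ := h.sym
  refine (hasFDerivAt_sub_const_iff (om z (σ z) - om (z - σ z) (z + σ z))).1 ?_
  refine Asymptotics.IsBigO.hasFDerivAt (n := 2) (Asymptotics.IsBigO.of_bound (C + 1 / 2)
    (Eventually.of_forall fun x => ?_)) one_lt_two
  have h1 := h.cl x z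
  rw [one_smul, one_smul] at h1
  have h2 := abs_om_le (x - z) ((σ x - x) - (σ z - z))
  have h3 := hC z x
  have e : om x (σ x) - om (z - σ z) (x + σ x) - (om z (σ z) - om (z - σ z) (z + σ z)) =
      om (x - z) ((σ x - x) - (σ z - z)) + (om (σ z) (σ x) - om z x) := by
    have e1 := om_symm (σ z) x
    have e2 := om_symm (σ z) z
    have e3 := om_symm x z
    simp only [om_sub_left, om_sub_right, om_add_right, om_self]
    linarith
  rw [norm_sub_rev z x] at h3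
  rw [e, norm_pow, norm_norm, Real.norm_eq_abs]
  refine (abs_add_le _ _).trans ?_
  nlinarith [norm_nonneg (x - z)]

theorem Near.gf_deriv (h : Near σ) (w : E) :
    HasFDerivAt (gf σ) ((2 : ℝ) • omL (yy σ w)) w := by
  have h1 := (near_deriv h (zz σ w)).isLittleO
  have h2 : (fun x => zz σ x - zz σ w) =O[𝓝 w] fun x => x - w :=
    Asymptotics.IsBigO.of_bound 2 (Eventually.of_forall fun x => h.zz_lip x w)
  have h3 : Tendsto (zz σ) (𝓝 w) (𝓝 (zz σ w)) :=
    tendsto_sub_nhds_zero_iff.1 (h2.trans_tendsto (tendsto_sub_nhds_zero_iff.2 tendsto_id))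
  have h4 := (h1.comp_tendsto h3).trans_isBigO h2
  have h5 : ∀ x, zz σ x + σ (zz σ x) = ((2 : ℝ) : ℂ) • x := fun x => by
    conv_rhs => rw [← h.right x]
    rw [smul_smul]
    norm_num
  refine HasFDerivAt.of_isLittleO (h4.congr_left fun x => ?_)
  simp only [Function.comp, h5, om_real_right, _root_.zero_apply,
    _root_.smul_apply, omL_apply, om_sub_right, smul_eq_mul, gf, yy]
  ring

theorem zz_cont {P : Type} [TopologicalSpace P] {τ : P → E → E}
    (hc : Continuous fun x : P × E => τ x.1 x.2) (h : ∀ p, Near (τ p)) :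
    Continuous fun x : P × E => zz (τ x.1) x.2 := by
  refine continuous_iff_continuousAt.2 fun x₀ => tendsto_iff_norm_sub_tendsto_zero.2 ?_
  have h1 : Continuous fun x : P × E => τ x.1 (zz (τ x₀.1) x₀.2) :=
    hc.comp (continuous_fst.prodMk continuous_const)
  have h2 : Continuous fun x : P × E =>
      2 * ‖x.2 - (2⁻¹ : ℂ) • (zz (τ x₀.1) x₀.2 + τ x.1 (zz (τ x₀.1) x₀.2))‖ := by fun_prop
  have h3 := h2.tendsto x₀
  rw [(h x₀.1).right, sub_self, norm_zero, mul_zero] at h3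
  refine squeeze_zero (fun _ => norm_nonneg _) (fun x => ?_) h3
  have h4 := (h x.1).zz_lip x.2 ((2⁻¹ : ℂ) • (zz (τ x₀.1) x₀.2 + τ x.1 (zz (τ x₀.1) x₀.2)))
  rwa [(h x.1).left] at h4

theorem Near.gf_line (h : Near σ) {u : ℂ} {x : E} (hx : σ x = u • x) (hu : 1 + u ≠ 0) (c : ℂ) :
    gf σ (c • x) = kq u * ‖c • x‖ ^ 2 := by
  have h1 : zz σ x = (2 / (1 + u)) • x := by
    have h2 := h.left ((2 / (1 + u)) • x)
    have h3 : (2⁻¹ : ℂ) • ((2 / (1 + u)) • x + (2 / (1 + u)) • u • x) = x := by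
      match_scalars
      field_simp
    rwa [h.hom, hx, h3] at h2
  rw [h.gf_hom, gf, h1, h.hom, hx, om_smul_smul, om_self_smul, norm_div, Complex.norm_ofNat,
    norm_smul, kq]
  ring

theorem near_yy (h : Near σ) {u : ℂ} (hu' : ‖u - 1‖ ≤ 1) {ε : ℝ}
    (hε : 0 ≤ ε) (hc : Cl σ u ε) (w w' : E) :
    ‖yy σ w' - yy σ w - (2 * (1 - u) / (1 + u)) • (w' - w)‖ ≤ 4 * ε * ‖w' - w‖ := by
  have h1 : 1 ≤ ‖1 + u‖ := by
    have h2 := norm_sub_le (1 + u) (u - 1)
    rw [show 1 + u - (u - 1) = 2 by ring, Complex.norm_ofNat] at h2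
    linarith
  have h2 : 1 + u ≠ 0 := norm_pos_iff.1 (by linarith)
  have h3 := hc (zz σ w') (zz σ w)
  have h4 := mul_le_mul_of_nonneg_left (h.zz_lip w' w) hε
  have h5 : yy σ w' - yy σ w - (2 * (1 - u) / (1 + u)) • (w' - w) = (-(2 / (1 + u))) •
      ((σ (zz σ w') - u • zz σ w') - (σ (zz σ w) - u • zz σ w)) := by
    conv_lhs => rw [yy, yy, show w' - w = (2⁻¹ : ℂ) • (zz σ w' + σ (zz σ w')) -
      (2⁻¹ : ℂ) • (zz σ w + σ (zz σ w)) by rw [h.right, h.right]]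
    match_scalars <;> field_simp <;> ring
  have h6 : 2 / ‖1 + u‖ ≤ 2 := div_le_self (by norm_num) h1
  rw [h5, norm_smul, norm_neg, norm_div, Complex.norm_ofNat]
  refine (mul_le_mul h6 (h3.trans h4) (norm_nonneg _) (by norm_num)).trans_eq ?_
  ring

theorem near_im (u : ℂ) : (2 * (1 - u) / (1 + u)).im = -kq u := by
  rw [Complex.div_im, kq, Complex.normSq_eq_norm_sq]
  simp only [Complex.mul_im, Complex.mul_re, Complex.re_ofNat, Complex.im_ofNat, Complex.sub_im,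
    Complex.sub_re, Complex.one_im, Complex.one_re, Complex.add_im, Complex.add_re]
  ring

theorem Near.gf_second (h : Near σ) {u : ℂ} (hu : ‖u‖ = 1) (hu' : ‖u - 1‖ ≤ 1) {ε : ℝ}
    (hε : 0 ≤ ε) (hc : Cl σ u ε) (w δ : E) :
    |gf σ (w + δ) - gf σ w - 2 * om (yy σ w) δ - kq u * ‖δ‖ ^ 2| ≤ 8 * ε * ‖δ‖ ^ 2 := by
  have h1 : ∀ t : ℝ, HasDerivAt (fun t : ℝ => gf σ (w + t • δ) - t * (2 * om (yy σ w) δ) -
      t ^ 2 * (kq u * ‖δ‖ ^ 2))
      (2 * om (yy σ (w + t • δ) - yy σ w - (2 * (1 - u) / (1 + u)) • (w + t • δ - w)) δ) t := by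
    intro t
    have h2 : HasDerivAt (fun t : ℝ => w + t • δ) δ t := by
      simpa using ((hasDerivAt_id t).smul_const δ).const_add w
    have h3 := (h.gf_deriv (w + t • δ)).comp_hasDerivAt t h2
    have h4 := (h3.sub ((hasDerivAt_id t).mul_const (2 * om (yy σ w) δ))).sub
      ((hasDerivAt_pow 2 t).mul_const (kq u * ‖δ‖ ^ 2))
    refine h4.congr_deriv ?_
    rw [add_sub_cancel_left, om_sub_left, om_sub_left, real_smul_eq t δ, smul_comm, om_real_left,
      om_symm (_ • δ) δ, om_self_smul, near_im, _root_.smul_apply, omL_apply,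
      smul_eq_mul]
    push_cast
    ring
  have h5 := norm_image_sub_le_of_norm_deriv_le_segment_01' (C := 8 * ε * ‖δ‖ ^ 2)
    (fun t _ => (h1 t).hasDerivWithinAt) fun t ht => by
      rw [Real.norm_eq_abs, abs_mul, abs_two]
      have h6 := near_yy h hu' hε hc w (w + t • δ)
      have h7 := abs_om_le
        (yy σ (w + t • δ) - yy σ w - (2 * (1 - u) / (1 + u)) • (w + t • δ - w)) δ
      have h8 : ‖w + t • δ - w‖ ≤ ‖δ‖ := by
        rw [add_sub_cancel_left, norm_smul, Real.norm_eq_abs, abs_of_nonneg ht.1]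
        exact mul_le_of_le_one_left (norm_nonneg _) ht.2.le
      have h9 := mul_le_mul_of_nonneg_right
        (h6.trans (mul_le_mul_of_nonneg_left h8 (by positivity))) (norm_nonneg δ)
      linarith
  rw [one_smul, zero_smul, add_zero, Real.norm_eq_abs] at h5
  refine le_of_eq_of_le (congrArg _ ?_) h5
  ring

end Vale.Agent.P209.C
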